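import Crest.Agent.X212.Fred93.Cpt

/-!
# Row 212, NT (helper92), part 1: the Schur lemma

A Fredholm operator becomes injective or surjective after a small perturbation from a linear
family whose values at every relevant vector are dense in a complement of the range.
-/

set_option autoImplicit false
set_option linter.unusedSectionVars false
noncomputable section
open Set Function Filter Topology Module

namespace Crest.Agent.X212.Nt92
open Fred93

variable {E F Ω : Type*} [NormedAddCommGroup E] [NormedSpace ℝ E] [CompleteSpace E]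
  [NormedAddCommGroup F] [NormedSpace ℝ F] [CompleteSpace F] [AddCommGroup Ω] [Module ℝ Ω]

/-- radially open sets -/
def Rad (N : Set Ω) : Prop := ∀ ω ∈ N, ∀ v, ∀ᶠ t in 𝓝 (0 : ℝ), ω + t • v ∈ N

theorem Rad.univ : Rad (univ : Set Ω) := fun _ _ _ => Eventually.of_forall fun _ => trivial

theorem Rad.inter {N N' : Set Ω} (h : Rad N) (h' : Rad N') : Rad (N ∩ N') :=
  fun ω hω v => (h ω hω.1 v).and (h' ω hω.2 v)

theorem Rad.biInter {κ : Type*} (s : Finset κ) {N : κ → Set Ω} (h : ∀ i ∈ s, Rad (N i)) :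
    Rad (⋂ i ∈ s, N i) := fun ω hω v => by
  simp only [mem_iInter] at hω ⊢
  exact (eventually_all_finset s).2 fun i hi => h i hi ω (hω i hi) v

theorem Rad.comap {Ω' : Type*} [AddCommGroup Ω'] [Module ℝ Ω'] {N : Set Ω} (h : Rad N)
    (ω₀ : Ω) (l : Ω' →ₗ[ℝ] Ω) : Rad {ω | ω₀ + l ω ∈ N} := fun ω hω v => by
  filter_upwards [h _ hω (l v)] with t ht
  simpa [add_assoc] using ht

theorem Rad.of_isOpen {G : Type*} [NormedAddCommGroup G] [NormedSpace ℝ G] {U : Set G}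
    (h : IsOpen U) : Rad U := fun ω hω v => by
  have : Tendsto (fun t : ℝ => ω + t • v) (𝓝 0) (𝓝 ω) :=
    (continuous_const.add (continuous_id.smul continuous_const)).tendsto' _ _ (by simp)
  exact this.eventually (h.mem_nhds hω)

theorem isOpen_inj (n : ℤ) : IsOpen {T : E →L[ℝ] F | Fr T n ∧ Injective T} := by
  refine isOpen_iff_mem_nhds.2 fun T hT => ?_
  obtain ⟨π, C, hC, -, hb⟩ := exists_est hT.1.1
  have h0 : ∀ x, π x = 0 := fun x => Subtype.ext (hT.2 (by simp))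
  filter_upwards [hT.1.eventually, Metric.ball_mem_nhds T (inv_pos.2 hC)] with S h1 h2
  refine ⟨h1, (injective_iff_map_eq_zero S).2 fun x hx => ?_⟩
  by_contra hne
  have h3 := hb x
  rw [h0, norm_zero, add_zero, show T x = (T - S) x by simp [hx]] at h3
  rw [Metric.mem_ball, dist_comm, dist_eq_norm, ← one_div, lt_div_iff₀ hC] at h2
  have h4 := mul_le_mul_of_nonneg_left ((T - S).le_opNorm x) hC.le
  nlinarith [norm_pos_iff.2 hne]

theorem isOpen_surj (n : ℤ) : IsOpen {T : E →L[ℝ] F | Fr T n ∧ Surjective T} := by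
  refine isOpen_iff_mem_nhds.2 fun T hT => ?_
  obtain ⟨R, hR⟩ := exists_rightInverse hT.1.1 hT.2
  have hc : Continuous fun S : E →L[ℝ] F => S.comp R := by fun_prop
  have h1 : IsUnit (T.comp R) := by
    rw [show T.comp R = 1 from ContinuousLinearMap.ext hR]; exact isUnit_one
  filter_upwards [hT.1.eventually, hc.continuousAt.eventually (Units.isOpen.mem_nhds h1)]
    with S h2 h3
  refine ⟨h2, fun y => ?_⟩
  obtain ⟨u, hu⟩ := h3
  refine ⟨R ((↑u⁻¹ : F →L[ℝ] F) y), ?_⟩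
  change (S.comp R * ↑u⁻¹) y = y
  rw [← hu, u.mul_inv]; rfl

/-- **One step**: the kernel drops. -/
theorem ker_drop {T P : E →L[ℝ] F} (hT : T.IsFredholm) {a : E} (ha : T a = 0)
    (hP : P a ∉ T.range) :
    ∀ᶠ t in 𝓝[≠] (0 : ℝ), finrank ℝ (T + t • P).ker < finrank ℝ T.ker := by
  obtain ⟨π, C, hC, hπ, hb⟩ := exists_est hT
  have := hT.finite_ker
  have hcl : IsClosed (T.range : Set F) := hT.isClosed_range
  obtain ⟨δ, hδ, hball⟩ := Metric.isOpen_iff.1 (hcl.isOpen_compl.preimage P.continuous) a hP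
  have h1 : Tendsto (fun t : ℝ => C * (|t| * ‖P‖)) (𝓝 0) (𝓝 0) :=
    Continuous.tendsto' (by fun_prop) _ _ (by simp)
  have h2 : Tendsto (fun t : ℝ => 2 * (C * (|t| * ‖P‖)) * ‖a‖) (𝓝 0) (𝓝 0) :=
    Continuous.tendsto' (by fun_prop) _ _ (by simp)
  filter_upwards [self_mem_nhdsWithin, nhdsWithin_le_nhds (h1.eventually_lt_const one_half_pos),
    nhdsWithin_le_nhds (h2.eventually_lt_const hδ)] with t ht h3 h4
  have key : ∀ u b, (T + t • P) u = 0 → T b = 0 → π u = π b →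
      ‖u - b‖ ≤ 2 * (C * (|t| * ‖P‖)) * ‖b‖ := by
    intro u b hu hb' e
    have h5 := hb (u - b)
    have h6 : T (u - b) = -(t • P u) := by
      rw [map_sub, hb', sub_zero]; exact eq_neg_of_add_eq_zero_left hu
    rw [h6, map_sub π, e, sub_self, norm_zero, add_zero, norm_neg, norm_smul,
      Real.norm_eq_abs] at h5
    have h7 : ‖P u‖ ≤ ‖P‖ * (‖u - b‖ + ‖b‖) := (P.le_opNorm u).trans
      (mul_le_mul_of_nonneg_left (by simpa using norm_add_le (u - b) b) (norm_nonneg _))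
    have h8 := mul_le_mul_of_nonneg_left (mul_le_mul_of_nonneg_left h7 (abs_nonneg t)) hC.le
    have h9 := mul_le_mul_of_nonneg_right h3.le (norm_nonneg (u - b))
    nlinarith
  let φ : (T + t • P).ker →ₗ[ℝ] T.ker := (π : E →ₗ[ℝ] T.ker) ∘ₗ (T + t • P).ker.subtype
  have hi : Injective φ := (injective_iff_map_eq_zero φ).2 fun u hu => by
    have := key u 0 u.2 (map_zero _) (by rw [map_zero]; exact hu)
    exact Subtype.ext (by simpa using this)
  rw [← LinearMap.finrank_range_of_inj hi]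
  refine Submodule.finrank_lt fun htop => ?_
  obtain ⟨u, hu⟩ : (⟨a, ha⟩ : T.ker) ∈ φ.range := htop ▸ Submodule.mem_top
  have h5 := key u a u.2 ha (hu.trans (hπ ⟨a, ha⟩).symm)
  refine hball (a := u) (by rw [Metric.mem_ball, dist_eq_norm]; linarith) ⟨-(t⁻¹ • u), ?_⟩
  have h6 : T u = -(t • P u) := eq_neg_of_add_eq_zero_left u.2
  change T (-(t⁻¹ • (u : E))) = P u
  rw [map_neg, map_smul, h6, smul_neg, neg_neg, inv_smul_smul₀ ht]

/-- the values of a linear family of operators at a vector -/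
def vals (P : Ω →ₗ[ℝ] E →L[ℝ] F) (a : E) : Submodule ℝ F :=
  ((ContinuousLinearMap.apply ℝ F a : (E →L[ℝ] F) →ₗ[ℝ] F) ∘ₗ P).range

theorem mem_vals {P : Ω →ₗ[ℝ] E →L[ℝ] F} {a : E} {y : F} : y ∈ vals P a ↔ ∃ ω, P ω a = y :=
  Iff.rfl

/-- the hypotheses of the Schur lemma on the set `N` of parameters -/
structure Sch (L : E →L[ℝ] F) (P : Ω →ₗ[ℝ] E →L[ℝ] F) (W : Submodule ℝ F) (N : Set Ω) : Prop where
  top : L.range ⊔ W = ⊤
  mem : ∀ ω u, P ω u ∈ W
  den : ∀ ω ∈ N, ∀ a, a ≠ 0 → (L + P ω) a = 0 → W ≤ (vals P a).topologicalClosure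

variable {L : E →L[ℝ] F} {P : Ω →ₗ[ℝ] E →L[ℝ] F} {W : Submodule ℝ F} {N : Set Ω} {n : ℤ}

theorem Sch.mono (h : Sch L P W N) {N' : Set Ω} (hN : N' ⊆ N) : Sch L P W N' :=
  ⟨h.top, h.mem, fun ω hω => h.den ω (hN hω)⟩

theorem Sch.step (h : Sch L P W N) {ω : Ω} (hω : ω ∈ N) (hf : Fr (L + P ω) n)
    (hi : ¬Injective (L + P ω)) (hs : ¬Surjective (L + P ω)) : ∃ v, ∀ᶠ t in 𝓝[≠] (0 : ℝ),
      finrank ℝ (L + P (ω + t • v)).ker < finrank ℝ (L + P ω).ker := by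
  rw [injective_iff_map_eq_zero] at hi
  push Not at hi
  obtain ⟨a, ha, h0⟩ := hi
  obtain ⟨v, hv⟩ : ∃ v, P v a ∉ (L + P ω).range := by
    by_contra hn
    push Not at hn
    have h1 : W ≤ (L + P ω).range := (h.den ω hω a h0 ha).trans
      (Submodule.topologicalClosure_minimal _ (by rintro _ ⟨v, rfl⟩; exact hn v)
        hf.1.isClosed_range)
    refine hs (LinearMap.range_eq_top.1 (eq_top_iff.2 (h.top ▸ sup_le ?_ h1)))
    rintro _ ⟨u, rfl⟩
    have e : L u = (L + P ω) u - P ω u := by simp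
    exact e ▸ Submodule.sub_mem _ ⟨u, rfl⟩ (h1 (h.mem ω u))
  refine ⟨v, ?_⟩
  filter_upwards [ker_drop hf.1 ha hv] with t ht
  rwa [show L + P (ω + t • v) = L + P ω + t • P v by rw [map_add, map_smul, add_assoc]]

/-- **Schur lemma.** -/
theorem Sch.exists (h : Sch L P W N) (hN : Rad N) {ω₀ : Ω} (h0 : ω₀ ∈ N)
    (hf : Fr (L + P ω₀) n) :
    ∃ ω ∈ N, Fr (L + P ω) n ∧ (Injective (L + P ω) ∨ Surjective (L + P ω)) := by
  have hN' := hN.inter ((Rad.of_isOpen (isOpen_fr (𝕜 := ℝ) n)).comap L P)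
  obtain ⟨ω, hω, hmin⟩ := (measure fun ω => finrank ℝ (L + P ω).ker).wf.has_min
    (N ∩ {ω | L + P ω ∈ {L | Fr L n}}) ⟨ω₀, h0, hf⟩
  refine ⟨ω, hω.1, hω.2, ?_⟩
  by_contra hn
  push Not at hn
  obtain ⟨v, hv⟩ := h.step hω.1 hω.2 hn.1 hn.2
  obtain ⟨t, h1, h2⟩ := (hv.and (nhdsWithin_le_nhds (hN' ω hω v))).exists
  exact hmin _ h2 h1

theorem Sch.inj (h : Sch L P W N) (hn : n ≤ 0) (hN : Rad N) {ω₀ : Ω} (h0 : ω₀ ∈ N)
    (hf : Fr (L + P ω₀) n) : ∃ ω ∈ N, Fr (L + P ω) n ∧ Injective (L + P ω) := by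
  obtain ⟨ω, h1, h2, h3⟩ := h.exists hN h0 hf
  exact ⟨ω, h1, h2, h3.elim id fun hs =>
    (h2.cast (le_antisymm hn (h2.nonneg_of_surj hs))).inj_of_surj hs⟩

theorem Sch.surj (h : Sch L P W N) (hn : 0 ≤ n) (hN : Rad N) {ω₀ : Ω} (h0 : ω₀ ∈ N)
    (hf : Fr (L + P ω₀) n) : ∃ ω ∈ N, Fr (L + P ω) n ∧ Surjective (L + P ω) := by
  obtain ⟨ω, h1, h2, h3⟩ := h.exists hN h0 hf
  exact ⟨ω, h1, h2, h3.elim (fun hi =>
    (h2.cast (le_antisymm (h2.nonpos_of_inj hi) hn)).surj_of_inj hi) id⟩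

theorem rad_inj (L : E →L[ℝ] F) (P : Ω →ₗ[ℝ] E →L[ℝ] F) (n : ℤ) :
    Rad {ω | Fr (L + P ω) n ∧ Injective (L + P ω)} := (Rad.of_isOpen (isOpen_inj n)).comap L P

theorem rad_surj (L : E →L[ℝ] F) (P : Ω →ₗ[ℝ] E →L[ℝ] F) (n : ℤ) :
    Rad {ω | Fr (L + P ω) n ∧ Surjective (L + P ω)} := (Rad.of_isOpen (isOpen_surj n)).comap L P

theorem rad_fr (L : E →L[ℝ] F) (P : Ω →ₗ[ℝ] E →L[ℝ] F) (n : ℤ) :
    Rad {ω | Fr (L + P ω) n} := (Rad.of_isOpen (isOpen_fr (𝕜 := ℝ) n)).comap L P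

/-- finitely many radially open and radially dense conditions hold simultaneously -/
theorem exists_all {κ : Type*} (s : Finset κ) {G : κ → Set Ω} (hG : ∀ i ∈ s, Rad (G i))
    {B : Set Ω} (hd : ∀ i ∈ s, ∀ N ⊆ B, Rad N → N.Nonempty → (N ∩ G i).Nonempty)
    (hB : N ⊆ B) (hN : Rad N) (h0 : N.Nonempty) : ∃ ω ∈ N, ∀ i ∈ s, ω ∈ G i := by
  classical
  induction s using Finset.induction_on with
  | empty => exact h0.imp fun _ h => ⟨h, by simp⟩
  | insert j s _ ih =>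
    obtain ⟨ω, h1, h2⟩ := ih (fun i hi => hG i (Finset.mem_insert_of_mem hi))
      fun i hi => hd i (Finset.mem_insert_of_mem hi)
    obtain ⟨ω', ⟨h3, h4⟩, h5⟩ := hd j (Finset.mem_insert_self _ _) (N ∩ ⋂ i ∈ s, G i)
      (inter_subset_left.trans hB)
      (hN.inter (Rad.biInter s fun i hi => hG i (Finset.mem_insert_of_mem hi)))
      ⟨ω, h1, by simpa using h2⟩
    refine ⟨ω', h3, fun i hi => ?_⟩
    rcases Finset.mem_insert.1 hi with rfl | hi
    · exact h5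
    · exact (mem_iInter₂.1 h4) i hi

end Crest.Agent.X212.Nt92
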