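import Crest.Agent.X212.Nt92.Jet
import Crest.Agent.X212.Sob92.Fun

/-!
# Row 212, NT (helper92), part 4: uniform derivatives of words along a line of connections
-/

set_option autoImplicit false
set_option linter.unusedSectionVars false
noncomputable section
open scoped Manifold ContDiff Topology InnerProductSpace
open MeasureTheory Set Function Filter

namespace Crest.Agent.X212.Nt92
open An Sob92 Wrd81

variable {E : Type} [NormedAddCommGroup E] [NormedSpace ℝ E] [FiniteDimensional ℝ E]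
  [MeasurableSpace E] [BorelSpace E]
  {HM : Type} [TopologicalSpace HM] {I : ModelWithCorners ℝ E HM} [I.Boundaryless]
  {M : Type} [TopologicalSpace M] [ChartedSpace HM M] [IsManifold I ∞ M]
  [MeasurableSpace M] [T2Space M] [BorelSpace M] [SecondCountableTopology M]
  {ι : Type} [Fintype ι]
  {V : Type} [NormedAddCommGroup V] [InnerProductSpace ℝ V] [FiniteDimensional ℝ V]
  {W : Type} [NormedAddCommGroup W] [InnerProductSpace ℝ W] [FiniteDimensional ℝ W]
  {F : Fr I M ι} {A α : ι → M → V →L[ℝ] V} {C : ℕ → ℝ} {u v : M → V}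

variable (F) in
/-- smooth functions all of whose derivatives are square integrable -/
structure HI (u : M → V) : Prop where
  sm : Sm I u
  fl : ∀ k, FL F.toPre k u

namespace HI

theorem of_hcs (hu : Sm I u) (hc : HasCompactSupport u) : HI F u :=
  ⟨hu, fun k => FL_of_hcs k hu hc⟩

theorem zero : HI F (0 : M → V) := of_hcs contMDiff_const HasCompactSupport.zero

theorem add (h : HI F u) (k : HI F v) : HI F (u + v) :=
  ⟨h.sm.add k.sm, fun j => ML.add F.sm h.sm k.sm (h.fl j) (k.fl j)⟩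

theorem app {T : M → V →L[ℝ] W} (hT : F.Cb T) (h : HI F u) : HI F fun x => T x (u x) :=
  let ⟨_, hC⟩ := hT
  ⟨hC.1.clm_apply h.sm, fun j =>
    (N2_mul (ContinuousLinearMap.id ℝ (V →L[ℝ] W)) hC.1 h.sm (hC.2 j) (h.fl j)).1⟩

theorem smul {f : M → ℝ} (hf : F.Cb f) (h : HI F u) : HI F fun x => f x • u x :=
  h.app (Cb_smul hf (Cb_const (ContinuousLinearMap.id ℝ V)))

theorem neg (h : HI F u) : HI F (-u) := h.app (Cb_const (-ContinuousLinearMap.id ℝ V))

theorem sub (h : HI F u) (k : HI F v) : HI F (u - v) := by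
  rw [sub_eq_add_neg]; exact h.add k.neg

theorem D (h : HI F u) (a : ι) : HI F (F.D a u) := ⟨F.sm_D h.sm a, fun j => (h.fl (j + 1)).2 a⟩

theorem sum {κ : Type*} (s : Finset κ) {u : κ → M → V} (h : ∀ i, HI F (u i)) :
    HI F fun x => ∑ i ∈ s, u i x := by
  classical
  induction s using Finset.induction_on with
  | empty => simp only [Finset.sum_empty]; exact zero
  | insert i s hi ih => simp only [Finset.sum_insert hi]; exact (h i).add ih

theorem cov (hA : ∀ a, F.Cb (A a)) (h : HI F u) (a : ι) : HI F (cov F.toPre A a u) :=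
  (h.D a).add (h.app (hA a))

theorem dl (hF : F.Tame C) (hA : ∀ a, F.Cb (A a)) (hα : ∀ a, F.Cb (α a)) (h : HI F u) :
    HI F (dl F A α u) :=
  (sum _ fun a => (((h.cov hA a).app (hα a)).add ((h.app (hα a)).cov hA a)).add
    ((h.app (hα a)).smul ⟨_, hF.dv a⟩)).neg

theorem is (hF : F.Tame C) (h : HI F u) (k : ℕ) : ∃ y, Is F.toPre k (triv M V) y u :=
  exists_Is (Exh.of_tame hF) h.sm (h.fl k) fun _ => rfl

theorem cb (hF : F.Tame C) (h : HI F u) : F.Cb u := by
  have := FiniteDimensional.complete ℝ V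
  obtain ⟨y, hy⟩ := h.is hF 4
  rw [← hy.val_eq (Sup.of_tame hF) le_rfl h.sm.continuous]
  refine Cb_val (Sup.of_tame hF) le_rfl fun j hj => ?_
  obtain ⟨g, hg⟩ := h.is hF j
  exact ⟨g, (hg.incl hj).unique hy⟩

theorem bdd (hF : F.Tame C) (h : HI F u) : ∃ c, 0 ≤ c ∧ ∀ x, ‖u x‖ ≤ c :=
  let ⟨D, hD⟩ := h.cb hF
  ⟨|D 0|, abs_nonneg _, fun x => (CB_zero.1 (hD.2 0) x).trans (le_abs_self _)⟩

/-- the resolvent preserves the class -/
theorem res (hF : F.Tame C) (r : RH F A) (h : HI F u) :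
    F.IsRes A u (F.res A u) ∧ HI F (F.res A u) := by
  have := FiniteDimensional.complete ℝ V
  obtain ⟨y, hy⟩ := h.is hF 0
  have key : ∀ k, ∀ z : F.H (2 * k) (triv M V), ∃ w, F.incl (2 * k) 0 _ z = (r.rsd.G ^ k) w := by
    intro k
    induction k with
    | zero => exact fun z => ⟨z, incl_self z⟩
    | succ k ih =>
      intro z
      obtain ⟨w, hw⟩ := ih (QH F A (2 * k) z)
      refine ⟨w, ?_⟩
      rw [pow_succ', mul_apply_eq_comp, ← hw]
      exact ((r.G0_incl _ _).trans (by rw [r.ell.G_Q]; rfl)).symm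
  have hi : r.rsd.Inf y := fun k => by
    obtain ⟨z, hz⟩ := h.is hF (2 * k)
    rw [← (hz.incl (Nat.zero_le _)).unique hy]
    exact key k z
  have hr : r.rsd.Rp y u := fun φ => by
    have := hy.inner_toH φ
    rw [incl_self] at this
    simp only [real_inner_comm (u _), real_inner_comm y]
    exact this
  obtain ⟨h1, -, h3⟩ := r.res_rp hi h.sm hr
  refine ⟨h1, h1.1, fun k => ?_⟩
  obtain ⟨z, hz⟩ := r.lev hi.G (k + 4)
  have e : F.val (k + 4) _ z = F.res A u := (rp_val (Sup.of_tame hF) (by omega) z).eq (hz ▸ h3)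
    (Cb_val (Sup.of_tame hF) (by omega) fun j hj => by
      obtain ⟨g, hg⟩ := r.lev hi.G j
      exact ⟨g, incl_injective (Nat.zero_le _)
        (by rw [incl_incl hj (Nat.zero_le _), hg]; exact hz.symm)⟩).choose_spec.1 h1.1
  exact ((e ▸ Is.val (Sup.of_tame hF) (by omega) z).FL h1.1).of_le (by omega)

end HI

variable (F) in
/-- bounded metric connection forms -/
structure Cn (A : ι → M → V →L[ℝ] V) : Prop where
  cb : ∀ a, F.Cb (A a)
  sk : ∀ a x, Wz78.Skew (A a x)
  proj : ∀ a x, ∑ b, F.P a b x • A b x = A a x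

theorem Cn.sm (h : Cn F A) (a : ι) : Sm I (A a) := (h.cb a).choose_spec.1

theorem Cn.rh (h : Cn F A) (hF : F.Tame C) : RH F A := rh_of_tame hF h.cb h.sk h.proj

/-- the line of connections -/
def ln (A α : ι → M → V →L[ℝ] V) (t : ℝ) : ι → M → V →L[ℝ] V := fun a x => A a x + t • α a x

theorem ln_zero : ln A α 0 = A := by funext a x; simp [ln]

theorem Cn.ln (h : Cn F A) (k : Cn F α) (t : ℝ) : Cn F (ln A α t) :=
  ⟨fun a => Cb_add (h.cb a) (Cb_smul (Cb_const t) (k.cb a)), fun a x v w => by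
    simp only [Nt92.ln, add_apply, smul_apply,
      inner_add_left, inner_add_right, real_inner_smul_left, real_inner_smul_right, h.sk a x v w,
      k.sk a x v w]; ring, fun a x => by
    simp only [Nt92.ln, smul_add, Finset.sum_add_distrib, h.proj, smul_comm _ t, ← Finset.smul_sum,
      k.proj]⟩

theorem lap1_ln (hA : ∀ a, Sm I (A a)) (hα : ∀ a, Sm I (α a)) (hu : Sm I u) (t : ℝ) (x : M) :
    lap1 F (ln A α t) u x =
      lap1 F A u x + t • dl F A α u x - t ^ 2 • ∑ a, α a x (α a x (u x)) := by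
  have h1 : ∀ a (w : M → V), cov F.toPre (ln A α t) a w =
      fun y => cov F.toPre A a w y + t • α a y (w y) := fun a w => funext fun y => by
    simp [cov, ln, add_assoc]
  have h2 : ∀ a, cov F.toPre A a (fun y => cov F.toPre A a u y + t • α a y (u y)) x =
      cov F.toPre A a (cov F.toPre A a u) x + t • cov F.toPre A a (fun y => α a y (u y)) x :=
    fun a => by
      rw [cov_add _ A (sm_cov _ hA hu a) (sm_smul contMDiff_const ((hα a).clm_apply hu)),
        cov_smul _ A contMDiff_const ((hα a).clm_apply hu)]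
      simp [Pre.D, dv_const]
  simp only [lap1, dl, h1, h2, map_add, map_smul, smul_neg, Finset.smul_sum, sub_eq_add_neg,
    add_assoc, ← neg_add, ← Finset.sum_add_distrib]
  congr 2
  exact Finset.sum_congr rfl fun a _ => by module

/-- uniform differentiability at `t = 0` -/
def UD (w : ℝ → M → V) (δ : M → V) : Prop :=
  ∀ ε > 0, ∀ᶠ t in 𝓝 (0 : ℝ), ∀ x, ‖w t x - w 0 x - t • δ x‖ ≤ ε * |t|

theorem UD.hasDerivAt {w : ℝ → M → V} {δ : M → V} (h : UD w δ) (x : M) :
    HasDerivAt (fun t => w t x) (δ x) 0 :=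
  hasDerivAt_iff_isLittleO_nhds_zero.2 (Asymptotics.isLittleO_iff.2 fun ε hε =>
    (h ε hε).mono fun t ht => by simpa using ht x)

theorem UD.of_sq {w : ℝ → M → V} {δ : M → V} {w' : ℝ → M → W} {δ' : M → W} (h : UD w δ)
    {c d : ℝ} (hc : 0 ≤ c) (hd : 0 ≤ d) (hb : ∀ t, |t| ≤ 1 → ∀ m, (∀ x, ‖w t x - w 0 x - t • δ x‖ ≤ m) →
      ∀ x, ‖w' t x - w' 0 x - t • δ' x‖ ≤ c * m + d * t ^ 2) : UD w' δ' := fun ε hε => by
  have h1 : Tendsto (fun t : ℝ => |t|) (𝓝 0) (𝓝 0) := continuous_abs.tendsto' _ _ abs_zero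
  filter_upwards [h (ε / (2 * (c + 1))) (by positivity), h1.eventually_le_const one_pos,
    h1.eventually_le_const (show 0 < ε / (2 * (d + 1)) by positivity)] with t a1 a2 a3 x
  refine (hb t a2 _ a1 x).trans ?_
  rw [le_div_iff₀ (by positivity)] at a3
  have a4 : c * (ε / (2 * (c + 1))) ≤ ε / 2 := by
    rw [← mul_div_assoc, div_le_div_iff₀ (by positivity) two_pos]; nlinarith
  have a5 := abs_nonneg t
  rw [← sq_abs, ← mul_assoc]
  nlinarith [mul_le_mul_of_nonneg_right a4 a5, mul_le_mul_of_nonneg_right a3 a5]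

theorem UD.const (u : M → V) : UD (fun _ => u) 0 := fun ε hε =>
  .of_forall fun t x => by simpa using by positivity

variable (F) in
/-- families with a uniform derivative -/
structure DJ (w : ℝ → M → V) (δ : M → V) : Prop where
  hi : ∀ t, HI F (w t)
  hd : HI F δ
  ud : UD w δ

namespace DJ
variable {w : ℝ → M → V} {δ : M → V}

theorem zero : DJ F (fun _ _ => (0 : V)) 0 := ⟨fun _ => HI.zero, HI.zero, UD.const _⟩

theorem app (h : DJ F w δ) {T : M → V →L[ℝ] W} (hT : F.Cb T) :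
    DJ F (fun t x => T x (w t x)) fun x => T x (δ x) := by
  obtain ⟨D, hD⟩ := id hT
  refine ⟨fun t => (h.hi t).app hT, h.hd.app hT,
    h.ud.of_sq (abs_nonneg (D 0)) le_rfl fun t _ m hm x => ?_⟩
  rw [← map_smul, ← map_sub, ← map_sub, zero_mul, add_zero]
  exact ((T x).le_opNorm _).trans (mul_le_mul ((CB_zero.1 (hD.2 0) x).trans (le_abs_self _))
    (hm x) (norm_nonneg _) (abs_nonneg _))

theorem smul (h : DJ F w δ) {f : M → ℝ} (hf : F.Cb f) :
    DJ F (fun t x => f x • w t x) fun x => f x • δ x :=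
  h.app (Cb_smul hf (Cb_const (ContinuousLinearMap.id ℝ V)))

theorem quad (hF : F.Tame C) {s r : M → V} (hs : HI F s) (hd : HI F δ) (hr : HI F r) :
    DJ F (fun t x => s x + t • δ x + t ^ 2 • r x) δ := by
  obtain ⟨c, c0, hc⟩ := hr.bdd hF
  refine ⟨fun t => (hs.add (hd.smul (Cb_const t))).add (hr.smul (Cb_const _)), hd,
    (UD.const s).of_sq le_rfl c0 fun t _ m _ x => ?_⟩
  rw [show s x + t • δ x + t ^ 2 • r x - (s x + (0 : ℝ) • δ x + (0 : ℝ) ^ 2 • r x) - t • δ x =
    t ^ 2 • r x by module, norm_smul, Real.norm_of_nonneg (sq_nonneg t), zero_mul, zero_add,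
    mul_comm]
  exact mul_le_mul_of_nonneg_right (hc x) (sq_nonneg t)

/-- **The derivative of the resolvent.** -/
theorem res (h : DJ F w δ) (hF : F.Tame C) (hA : Cn F A) (hα : Cn F α) :
    DJ F (fun t => F.res (ln A α t) (w t)) (F.res A (δ - dl F A α (F.res A (w 0)))) := by
  have r := fun t => (hA.ln hα t).rh hF
  have r0 := hA.rh hF
  have h1 := fun t => (h.hi t).res hF (r t)
  obtain ⟨a1, a2⟩ := (h.hi 0).res hF r0
  obtain ⟨b1, b2⟩ := (h.hd.sub (a2.dl hF hA.cb hα.cb)).res hF r0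
  set u := F.res A (w 0)
  set v := F.res A (δ - dl F A α u)
  have aa : ∀ {u : M → V}, HI F u → HI F fun x => ∑ a, α a x (α a x (u x)) := fun hu =>
    HI.sum _ fun a => (hu.app (hα.cb a)).app (hα.cb a)
  obtain ⟨c, c0, hc⟩ := ((aa a2).sub (b2.dl hF hA.cb hα.cb)).bdd hF
  obtain ⟨d, d0, hd⟩ := (aa b2).bdd hF
  refine ⟨fun t => (h1 t).2, b2, h.ud.of_sq zero_le_one (add_nonneg c0 d0) fun t ht m hm x => ?_⟩
  have k : ∀ {u : M → V}, HI F u → F.IsRes (ln A α t) (lap1 F (ln A α t) u) u := fun hu =>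
    isRes_iff.2 ⟨hu.sm, (hu.bdd hF).imp fun _ h => h.2, rfl⟩
  have k1 := Mp86.isRes_add (r t).mc.sm (Mp86.isRes_add (r t).mc.sm (h1 t).1
    (Mp86.isRes_smul (r t).mc.sm (-1) (k a2))) (Mp86.isRes_smul (r t).mc.sm (-t) (k b2))
  have k2 := Mp86.isRes_norm_le (r t).bmp (r t).mc k1 (m := 1 * m + (c + d) * t ^ 2) (fun y => ?_) x
  · rw [ln_zero]
    convert k2 using 2
    module
  · rw [lap1_ln hA.sm hα.sm a2.sm, lap1_ln hA.sm hα.sm b2.sm, (isRes_iff.1 a1).2.2,
      (isRes_iff.1 b1).2.2]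
    have e1 := hc y
    simp only [Pi.sub_apply] at e1 ⊢
    generalize ∑ a, α a y (α a y (u y)) = p at e1
    have e2 := hd y
    generalize ∑ a, α a y (α a y (v y)) = p' at e2
    rw [show w t y + (-1 : ℝ) • (w 0 y + t • dl F A α u y - t ^ 2 • p) +
      -t • (δ y - dl F A α u y + t • dl F A α v y - t ^ 2 • p') =
      (w t y - w 0 y - t • δ y) + (t ^ 2 • (p - dl F A α v y) + t ^ 2 • t • p') by module]
    refine (norm_add_le _ _).trans (add_le_add (by rw [one_mul]; exact hm y) ?_)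
    rw [← smul_add, norm_smul, Real.norm_of_nonneg (sq_nonneg t), mul_comm]
    refine mul_le_mul_of_nonneg_right ((norm_add_le _ _).trans (add_le_add e1 ?_)) (sq_nonneg t)
    rw [norm_smul, Real.norm_eq_abs]
    nlinarith [norm_nonneg p']

end DJ

end Crest.Agent.X212.Nt92
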