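import Crest.Agent.X212.Nt92.Gen
import Crest.Agent.X212.Wz78.Var

/-!
# Row 212, NT (helper92), part 6: curvature words along a line of connections
-/

set_option autoImplicit false
set_option linter.unusedSectionVars false
noncomputable section
open scoped Manifold ContDiff Topology InnerProductSpace
open MeasureTheory Set Function Filter

namespace Crest.Agent.X212.Nt92
open An Sob92 Wrd81 Wz78

variable {E : Type} [NormedAddCommGroup E] [NormedSpace ℝ E] [FiniteDimensional ℝ E]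
  [MeasurableSpace E] [BorelSpace E]
  {HM : Type} [TopologicalSpace HM] {I : ModelWithCorners ℝ E HM} [I.Boundaryless]
  {M : Type} [TopologicalSpace M] [ChartedSpace HM M] [IsManifold I ∞ M]
  [MeasurableSpace M] [T2Space M] [BorelSpace M] [SecondCountableTopology M]
  {ι : Type} [Fintype ι] {ι' : Type} [Fintype ι'] {lam : Type} [Fintype lam] {r n : ℕ}

/-- adjoint words with a curvature seed and test data in `Ω` -/
def CvIn (I : ModelWithCorners ℝ E HM) (Ω : Set M) (ξ : AW M) : Prop :=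
  AwIn I Ω ξ ∧ ∃ f g h, ξ.s = .cv f g h

section defs
variable (m : Md M ι lam) (F : Fr I M ι) (W : m.Cn) (α : M → Fm ι m.A)

/-- the line of connections -/
def lnW (t : ℝ) : m.Cn := m.addC W fun x => t • α x

/-- the direction on `g` -/
def adA : ι → M → En (Fin m.N × Fin m.N) := fun a x => adc (opL (α x a))

/-- the value of a curvature word depends only on the connection -/
def cw (ξ : AW M) : M → m.A := (⟨m, W, 0, 0⟩ : Cfg M ι lam 0).aw F ξ

/-- letters acting on jets -/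
def jl : La M → (M → m.A) × (M → m.A) → (M → m.A) × (M → m.A)
  | .mul f, j => (fun x => f x • j.1 x, fun x => f x • j.2 x)
  | .G, j => (F.res (m.adW W) j.1,
      F.res (m.adW W) (j.2 - dl F (m.adW W) (adA m α) (F.res (m.adW W) j.1)))

/-- the derivative of the curvature -/
def dF (x : M) (s : ι × ι) : m.A :=
  m.pg x (hsL (dA I F.e F.c W (fun a y => opL (α y a)) s.1 s.2 x))

/-- the jet of a curvature word -/
def jet (ξ : AW M) : (M → m.A) × (M → m.A) :=
  match ξ.s with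
  | .q _ _ => 0
  | .cv f g h => wd (jl m F W α) (jl m F W α .G (jl m F W α .G
      (fun x => ∑ s : ι × ι, (f x * F.D s.1 g x * F.D s.2 h x) • m.Fg F W x s,
        fun x => ∑ s : ι × ι, (f x * F.D s.1 g x * F.D s.2 h x) • dF m F W α x s))) ξ.l

end defs

theorem aw_eq (c : Cfg M ι lam r) (F : Fr I M ι) {Ω : Set M} {ξ : AW M} (h : CvIn I Ω ξ) :
    c.aw F ξ = cw c.m F c.W ξ := by
  obtain ⟨s, l⟩ := ξ
  obtain ⟨-, f, g, k, rfl⟩ := h
  have : c.la F = (⟨c.m, c.W, 0, 0⟩ : Cfg M ι lam 0).la F := by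
    funext t u; cases t <;> rfl
  simp only [cw, Cfg.aw, this]
  rfl

theorem CvIn.cons {Ω : Set M} {ξ : AW M} (h : CvIn I Ω ξ) {t : La M} (ht : LaIn I Ω t) :
    CvIn I Ω ⟨ξ.s, t :: ξ.l⟩ := ⟨⟨h.1.1, h.1.2.cons ht⟩, h.2⟩

variable {m : Md M ι lam} {B : Base M ι lam} {G : Geo I M ι lam} {W : m.Cn} {α : M → Fm ι m.A}
  {K Ω : Set M} {ξ : AW M}

theorem jet_cons {F : Fr I M ι} (h : CvIn I Ω ξ) (t : La M) :
    jet m F W α ⟨ξ.s, t :: ξ.l⟩ = jl m F W α t (jet m F W α ξ) := by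
  obtain ⟨s, l⟩ := ξ
  obtain ⟨-, f, g, k, rfl⟩ := h
  rfl

theorem adW_lnW (t : ℝ) : m.adW (lnW m W α t) = ln (m.adW W) (adA m α) t := by
  funext a x
  simp [Md.adW, lnW, Md.addC, ln, adA, ← adcL_apply]

theorem lnW_zero : lnW m W α 0 = W := by funext a x; simp [lnW, Md.addC]

variable (B G W α) in
/-- a bounded admissible connection and a bounded direction -/
structure Dir : Prop where
  hB : B.OK I
  hG : G.OK B
  ok : m.OK I B
  conn : m.IsConn B G W
  tame : ∃ C, G.F.Tame C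
  cW : ∀ a, G.F.Cb (W a)
  cα : G.F.Cb α
  p1 : ∀ x, m.p1 B x (α x) = α x

namespace Dir
variable (h : Dir B G W α)
include h

theorem mem (x : M) (a : ι) : α x a ∈ m.gS x := by
  rw [← h.p1 x, Md.p1, idx_apply]
  exact Submodule.sum_mem _ fun b _ => Submodule.smul_mem _ _ (pg_mem x _)

theorem proj (x : M) (a : ι) : ∑ b, B.P a b x • α x b = α x a := by
  conv_rhs => rw [← h.p1 x, Md.p1, idx_apply]
  simp only [pg_of_mem (h.mem x _)]

theorem cb (a : ι) : G.F.Cb fun x => α x a := Cb_clm (PiLp.proj 2 (fun _ : ι => m.A) a) h.cα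

theorem sm (a : ι) : Sm I fun x => opL (α x a) := (Cb_clm opL (h.cb a)).choose_spec.1

theorem cnW : Cn G.F (m.adW W) :=
  ⟨fun a => Cb_clm adcL (h.cW a), adW_skw h.conn, h.hG.P ▸ (con_adW h.conn).proj⟩

theorem cnA : Cn G.F (adA m α) :=
  ⟨fun a => Cb_clm (adcL ∘L opL) (h.cb a), fun a x => adc_skw (g_skw (h.mem x a)), fun a x => by
    simp only [adA, ← adcL_apply, ← map_smul, ← map_sum, h.hG.P, h.proj]⟩

theorem rh : RH G.F (m.adW W) := h.cnW.rh h.tame.choose_spec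

theorem spg : Sm I m.pg := Std94.sm_pg h.hB h.ok

theorem Fg_lnW (t : ℝ) (x : M) (s : ι × ι) : m.Fg G.F (lnW m W α t) x s =
    m.Fg G.F W x s + t • dF m G.F W α x s + t ^ 2 • m.pg x (adc (opL (α x s.1)) (α x s.2)) := by
  have e : lnW m W α t = W + fun a y => t • opL (α y a) := by
    funext a y; simp [lnW, Md.addC]
  have e2 : ∀ a b, nabE I G.F.e W a (fun y => t • opL (α y b)) x =
      t • nabE I G.F.e W a (fun y => opL (α y b)) x := fun a b => by
    rw [nabE_smul a contMDiffAt_const (h.sm b x)]; simp [dv_const]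
  simp only [Md.Fg, dF, e, curv_addA (fun a => h.conn.cc.sm a x)
    (fun a => sm_smul contMDiff_const (h.sm a) x), dA, e2, adc_apply, map_add, map_sub, map_smul,
    map_sum, smul_mul_smul_comm, smul_sub, Finset.smul_sum, smul_comm t, sq]

theorem sm_dF (s : ι × ι) : Sm I fun x => dF m G.F W α x s := fun x =>
  SA.app (h.spg x) (SA.clm hsL (((gfrm h.hG).sNE (fun a => h.conn.cc.sm a x) _ (h.sm _ x)).sub
    ((gfrm h.hG).sNE (fun a => h.conn.cc.sm a x) _ (h.sm _ x)) |>.sub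
    (SA.sum _ fun k _ => SA.smul (G.F.c_sm _ _ k x) (h.sm k x))))

theorem dj_G {w : ℝ → M → m.A} {j : (M → m.A) × (M → m.A)} (k : w 0 = j.1 ∧ DJ G.F w j.2) :
    G.F.res (m.adW (lnW m W α 0)) (w 0) = (jl m G.F W α .G j).1 ∧
      DJ G.F (fun t => G.F.res (m.adW (lnW m W α t)) (w t)) (jl m G.F W α .G j).2 := by
  refine ⟨by rw [lnW_zero, k.1]; rfl, ?_⟩
  simp only [adW_lnW, jl, ← k.1]
  exact k.2.res h.tame.choose_spec h.cnW h.cnA

/-- **The jet is the value and the uniform derivative of the word.** -/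
theorem dj (hξ : CvIn I Ω ξ) : cw m G.F (lnW m W α 0) ξ = (jet m G.F W α ξ).1 ∧
    DJ G.F (fun t => cw m G.F (lnW m W α t) ξ) (jet m G.F W α ξ).2 := by
  obtain ⟨s, l⟩ := ξ
  obtain ⟨⟨h1, h2⟩, f, g, k, rfl⟩ := hξ
  induction l with
  | nil =>
    have hi : ∀ {u : ι × ι → M → m.A}, (∀ s, Sm I (u s)) →
        HI G.F fun x => ∑ s : ι × ι, (f x * G.F.D s.1 g x * G.F.D s.2 k x) • u s x := fun hu =>
      HI.sum _ fun s => HI.of_hcs (sm_smul ((h1.1.sm.mul (G.F.sm_D h1.2.1.sm _)).mul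
        (G.F.sm_D h1.2.2.sm _)) (hu s)) h1.1.hcs.mul_right.mul_right.smul_right
    refine h.dj_G (w := fun t => G.F.res (m.adW (lnW m W α t)) fun x => ∑ s : ι × ι,
      (f x * G.F.D s.1 g x * G.F.D s.2 k x) • m.Fg G.F (lnW m W α t) x s)
      (h.dj_G (w := fun t x => ∑ s : ι × ι,
      (f x * G.F.D s.1 g x * G.F.D s.2 k x) • m.Fg G.F (lnW m W α t) x s)
      (j := (fun x => ∑ s : ι × ι, (f x * G.F.D s.1 g x * G.F.D s.2 k x) • m.Fg G.F W x s,
        fun x => ∑ s : ι × ι, (f x * G.F.D s.1 g x * G.F.D s.2 k x) • dF m G.F W α x s))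
      ⟨by rw [lnW_zero], ?_⟩)
    convert DJ.quad h.tame.choose_spec (hi fun s => sm_Fg h.hG h.conn h.spg s) (hi h.sm_dF)
      (hi fun s => h.spg.clm_apply ((h.cnA.sm s.1).clm_apply (h.cb s.2).choose_spec.1)) using 1
    funext t x
    simp only [h.Fg_lnW, smul_add, Finset.sum_add_distrib, Finset.smul_sum, smul_comm t,
      smul_comm (t ^ 2), adA]
  | cons t l ih =>
    have ih := ih h1 fun t k => h2 t (List.mem_cons_of_mem _ k)
    have ht := h2 t List.mem_cons_self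
    cases t with
    | mul φ => exact ⟨funext fun x => congrArg (φ x • ·) (congrFun ih.1 x), ih.2.smul (Tf.cb _ ht)⟩
    | G => exact h.dj_G (w := fun t => cw m G.F (lnW m W α t) ⟨.cv f g k, l⟩) ih

theorem jet_fst (hξ : CvIn I Ω ξ) : (jet m G.F W α ξ).1 = cw m G.F W ξ := by
  rw [← (h.dj hξ).1, lnW_zero]

theorem hi_cw (hξ : CvIn I Ω ξ) : HI G.F (cw m G.F W ξ) := by
  have := (h.dj hξ).2.hi 0
  rwa [lnW_zero] at this

theorem hasDerivAt (hξ : CvIn I Ω ξ) (x : M) :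
    HasDerivAt (fun t => cw m G.F (lnW m W α t) ξ x) ((jet m G.F W α ξ).2 x) 0 :=
  (h.dj hξ).2.ud.hasDerivAt x

end Dir

variable (I m) in
/-- the span of the jets -/
def JJ (F : Fr I M ι) (W : m.Cn) (α : M → Fm ι m.A) (Ω : Set M) :
    Submodule ℝ ((M → m.A) × (M → m.A)) := Submodule.span ℝ (jet m F W α '' {ξ | CvIn I Ω ξ})

theorem Dir.jet (h : Dir B G W α) (cl : IsClopen K) (op : IsOpen Ω) (null : G.F.μ (K \ Ω) = 0) :
    Jet K (Ω ∩ K) G.F (m.adW W) (adA m α) (JJ I m G.F W α Ω) := by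
  refine Jet.span h.cnW.sm cl (op.inter cl.2) inter_subset_right
    (by rw [sdiff_inter_self_eq_sdiff, null]) h.cnA.sm ?_ ?_ ?_
  · rintro _ ⟨ξ, hξ, rfl⟩
    exact ⟨h.jet_fst hξ ▸ (h.hi_cw hξ).sm, (h.dj hξ).2.hd.sm⟩
  · rintro f hf _ ⟨ξ, hξ, rfl⟩
    exact ⟨_, CvIn.cons hξ (t := .mul f) (hf.mono inter_subset_left), jet_cons hξ _⟩
  · rintro _ ⟨ξ, hξ, rfl⟩
    have h1 := (h.jet_fst hξ ▸ h.hi_cw hξ : HI G.F (Nt92.jet m G.F W α ξ).1).res
      h.tame.choose_spec h.rh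
    exact ⟨_, ⟨_, CvIn.cons hξ (t := .G) trivial, jet_cons hξ _⟩, h1.1,
      (((h.dj hξ).2.hd.sub (h1.2.dl h.tame.choose_spec h.cnW.cb h.cnA.cb)).res
        h.tame.choose_spec h.rh).1⟩

end Crest.Agent.X212.Nt92
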