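import Crest.Agent.X212.Nt92.Der
import Crest.Agent.X212.Wrd81.Gau

/-!
# Row 212, NT (helper92), part 5: examples of parallel projectors, export to two-forms
-/

set_option autoImplicit false
set_option linter.unusedSectionVars false
noncomputable section
open scoped Manifold ContDiff Topology InnerProductSpace
open MeasureTheory Set Function Filter

namespace Crest.Agent.X212.Nt92
open An Sob92 Wrd81

variable {E : Type} [NormedAddCommGroup E] [NormedSpace ℝ E] [FiniteDimensional ℝ E]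
  [MeasurableSpace E] [BorelSpace E]
  {HM : Type} [TopologicalSpace HM] {I : ModelWithCorners ℝ E HM} [I.Boundaryless]
  {M : Type} [TopologicalSpace M] [ChartedSpace HM M] [IsManifold I ∞ M]
  [MeasurableSpace M] [T2Space M] [BorelSpace M] [SecondCountableTopology M]
  {ι : Type} [Fintype ι] {ι' : Type} [Fintype ι'] {lam : Type} [Fintype lam]
  {V : Type} [NormedAddCommGroup V] [InnerProductSpace ℝ V] [FiniteDimensional ℝ V]
  {K Ω : Set M} {F : Fr I M ι} {A : ι → M → V →L[ℝ] V}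

theorem lap1_congr {u v : M → V} {x : M} (h : u =ᶠ[𝓝 x] v) : lap1 F A u x = lap1 F A v x := by
  simp only [lap1_eq, h.eq_of_nhds]
  exact congrArg _ (congrArg Neg.neg (Mp86.LA_congr h))

theorem lap1_zero (x : M) : lap1 F A (fun _ => (0 : V)) x = 0 := by
  rw [lap1_eq]; exact (zero_add _).trans (Mp86.lap_zero x)

theorem zero_of_isRes (hK : IsOpen K) {s u : M → V} (h : F.IsRes A s u) (h0 : ∀ x ∈ K, u x = 0) :
    ∀ x ∈ K, s x = 0 := fun x hx => by
  rw [← (isRes_iff.1 h).2.2, lap1_congr (v := fun _ => 0) (eventually_of_mem (hK.mem_nhds hx) h0),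
    lap1_zero]

theorem PP.of_nabE {q : M → V →L[ℝ] V} (hq : Sm I q) (hs : ∀ x v w, ⟪q x v, w⟫_ℝ = ⟪v, q x w⟫_ℝ)
    (hi : ∀ x v, q x (q x v) = q x v) (hp : ∀ a x, Wz78.nabE I F.e A a q x = 0) : PP F A q :=
  ⟨hq, hs, hi, fun a x => (eq_neg_of_add_eq_zero_left (hp a x)).trans (neg_sub _ _)⟩

theorem PP.ind (hK : IsClopen K) :
    PP F A fun y => K.indicator (1 : M → ℝ) y • (1 : V →L[ℝ] V) := by
  refine ⟨sm_smul (sm_ind hK) sm_one, fun x v w => by
    simp [real_inner_smul_left, real_inner_smul_right], fun x v => ?_, fun a x => ?_⟩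
  · by_cases hx : x ∈ K <;> simp [hx]
  · rw [Pre.D_def, dv_congr (v := fun _ => K.indicator (1 : M → ℝ) x • (1 : V →L[ℝ] V))
      ((ind_ev hK x).mono fun z hz => by rw [hz]), dv_const]
    simp

variable (V) in
/-- `(u, v) ↦ ⟪u, ·⟫ v` -/
def rkB : V →L[ℝ] V →L[ℝ] V →L[ℝ] V := ContinuousLinearMap.smulRightL ℝ V V ∘L innerSL ℝ

@[simp] theorem rkB_apply (u v w : V) : rkB V u v w = ⟪u, w⟫_ℝ • v := rfl

theorem PP.rk {ξ : M → V} (hA : ∀ a x, Wz78.Skew (A a x)) (hξ : Sm I ξ)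
    (hp : ∀ a x, Wrd81.cov F.toPre A a ξ x = 0) (h1 : ∀ x, ‖ξ x‖ = 1 ∨ ξ x = 0) :
    PP F A fun x => rkB V (ξ x) (ξ x) := by
  refine ⟨((rkB V).contMDiff.comp hξ).clm_apply hξ, fun x v w => ?_, fun x v => ?_, fun a x => ?_⟩
  · simp only [rkB_apply, real_inner_smul_left, real_inner_smul_right, real_inner_comm v, mul_comm]
  · rcases h1 x with h | h <;> simp [h]
  · rw [Pre.D_def, dv_bil (rkB V) (md hξ x) (md hξ x),
      show dv I (F.e a) ξ x = -A a x (ξ x) from eq_neg_of_add_eq_zero_left (hp a x)]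
    ext v
    simp [hA a x _ v, sub_eq_add_neg]

theorem PP.res_zero {q : M → V →L[ℝ] V} (hq : PP F A q) (h : RH F A) {s u : M → V}
    (k : F.IsRes A s u) (h0 : ∀ x, q x (s x) = 0) (x : M) : q x (u x) = 0 := by
  have := hq.isRes h.mc.sm k
  simp only [h0] at this
  exact congrFun (Mp86.isRes_unique h.bmp h.mc this Mp86.isRes_zero) x

theorem sm_idx {B : Base M ι lam} (hB : B.OK I) {q : M → V →L[ℝ] V} (hq : Sm I q) :
    Sm I fun x => idx (B.sd x) (q x) := Std94.Kl.idx (K := Std94.smAll I)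
  (fun _ _ => ((((hB.sP _ _).mul (hB.sP _ _)).sub ((hB.sP _ _).mul (hB.sP _ _))).div_const 2
    |>.add ((hB.so _ _ _ _).div_const 2)).div_const 2) hq

/-- density of the words gives density of the self-dual forms `(dg ∧ dh)⁺ ⊗ w` -/
theorem ap_two {B : Base M ι lam} (hB : B.OK I) (hP : F.P = B.P) {𝒲 : Set (M → V)}
    {π q : M → V →L[ℝ] V} (c : Fam K Ω F A 𝒲) (p : Prj K Ω F A 𝒲 π) (hq : PP F A q)
    (e : ∀ x ∈ K, π x = q x) {O : Set M} (hO : IsOpen O) (hΩ : O ⊆ Ω) (F' : Pre I M ι') (k : ℕ)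
    {u : M → Fm (ι × ι) V} (hu : Sm I u) (hc : HasCompactSupport u) (hs : tsupport u ⊆ O)
    (hqu : ∀ x, idx (B.sd x) (q x) (u x) = u x) :
    u ∈ Ap F' k {v | ∃ g g', Tf I O g ∧ Tf I O g' ∧ ∃ w ∈ 𝒲,
      v = fun x => idx (B.sd x) (q x) (wg F V g g' x (w x))} := by
  refine mem_two hB hP hq.sm hq.symm hq.idem hO (fun g hg g' hg' f hf b => ?_) hu hc hs hqu
  have hT := (sm_idx hB hq.sm).clm_comp (sm_wg (F := F) (V := V) hg.sm hg'.sm)
  convert p.loc (F' := F') (k := k) c.op hT (fun f hf w hw => ?_) (hf.mono hΩ)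
    (contMDiff_const (c := b)) using 1
  · funext x
    by_cases hx : x ∈ K
    · ext1 s
      simp [e x hx, wg_apply, hq.idem]
    · simp [image_eq_zero_of_notMem_tsupport fun h => hx (c.sub (hΩ (hf.sub h)))]
  · exact Ap.of_mem (smul_mem_tst hf.sm hf.hcs (hT.clm_apply (c.sm w hw)))
      ⟨g, g', hg, hg', _, c.mul f hf w hw, funext fun x => by simp⟩

/-- an idempotent of a plane which commutes with a complex structure -/
theorem zero_or_all {S : Submodule ℝ V} (hS : Module.finrank ℝ S = 3) {ξ : V} (hξ : ξ ∈ S)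
    (h1 : ‖ξ‖ = 1) {J T q : V →L[ℝ] V} (hJ : Wz78.Skew J) (J0 : J ξ = 0) (JS : ∀ v ∈ S, J v ∈ S)
    (Jn : ∀ v ∈ S, J v = 0 → ⟪ξ, v⟫_ℝ = 0 → v = 0) (qS : ∀ v, q v ∈ S) (q0 : ∀ v, ⟪ξ, q v⟫_ℝ = 0)
    (hT : ∀ v, T (T v) = T v) (h2 : ∀ v, q (T v) = T v) (h3 : ∀ v, T (q v) = T v)
    (h4 : ∀ v, T (J (T v)) = J (T v)) : T = 0 ∨ T = q := by
  refine or_iff_not_imp_left.2 fun h0 => ?_
  obtain ⟨u, hu⟩ : ∃ u, T u ≠ 0 := by
    by_contra! h; exact h0 (ContinuousLinearMap.ext h)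
  have m : T u ∈ S := h2 u ▸ qS _
  have o1 : ⟪ξ, T u⟫_ℝ = 0 := h2 u ▸ q0 _
  have o2 : ⟪ξ, J (T u)⟫_ℝ = 0 := by
    have := hJ ξ (T u); rw [J0, inner_zero_left] at this; linarith
  have o3 : ⟪T u, J (T u)⟫_ℝ = 0 := by
    have := hJ (T u) (T u); rw [real_inner_comm] at this; linarith
  let b : Fin 3 → S := ![⟨ξ, hξ⟩, ⟨T u, m⟩, ⟨J (T u), JS _ m⟩]
  have li : LinearIndependent ℝ b := by
    refine linearIndependent_of_ne_zero_of_inner_eq_zero (𝕜 := ℝ) (fun i => ?_) fun i j hij => ?_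
    · fin_cases i
      · exact fun h => by simp [show ξ = 0 from congrArg Subtype.val h] at h1
      · exact fun h => hu (congrArg Subtype.val h)
      · exact fun h => hu (Jn _ m (congrArg Subtype.val h) o1)
    · fin_cases i <;> fin_cases j <;>
        first | exact absurd rfl hij | assumption | (rw [real_inner_comm]; assumption)
  ext1 v
  have hv : (⟨q v, qS v⟩ : S) ∈ Submodule.span ℝ (range b) :=
    li.span_eq_top_of_card_eq_finrank (by simp [hS]) ▸ Submodule.mem_top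
  obtain ⟨c, hc⟩ := (Submodule.mem_span_range_iff_exists_fun ℝ).1 hv
  have e : c 0 • ξ + c 1 • T u + c 2 • J (T u) = q v := by
    simpa [Fin.sum_univ_three, b] using congrArg Subtype.val hc
  have c0 : c 0 = 0 := by
    have := q0 v
    rw [← e] at this
    simpa [inner_add_right, real_inner_smul_right, o1, o2, h1] using this
  rw [← h3, ← e]
  simp [c0, hT, h4]

end Crest.Agent.X212.Nt92
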