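import Crest.Agent.X212.Nt92.Pt

/-!
# Row 212, NT (helper92), part 3: jets of words at an abelian point

A jet is a pair `(s, δ)`: the value of a word at the connection `A` and its derivative in the
direction `α`.  Either the derivatives of the words that vanish at `A` are dense, or `α` is exact.
-/

set_option autoImplicit false
set_option linter.unusedSectionVars false
noncomputable section
open scoped Manifold ContDiff Topology InnerProductSpace
open MeasureTheory Set Function Filter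

namespace Crest.Agent.X212.Nt92
open An Sob92 Wrd81

variable {E : Type} [NormedAddCommGroup E] [NormedSpace ℝ E] [FiniteDimensional ℝ E]
  [MeasurableSpace E] [BorelSpace E]
  {HM : Type} [TopologicalSpace HM] {I : ModelWithCorners ℝ E HM} [I.Boundaryless]
  {M : Type} [TopologicalSpace M] [ChartedSpace HM M] [IsManifold I ∞ M]
  [MeasurableSpace M] [T2Space M] [BorelSpace M] [SecondCountableTopology M]
  {ι : Type} [Fintype ι]
  {V : Type} [NormedAddCommGroup V] [InnerProductSpace ℝ V] [FiniteDimensional ℝ V]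
  {K Ω : Set M} {F : Fr I M ι} {A α : ι → M → V →L[ℝ] V}

variable (F A α) in
/-- the derivative of `1 + ∇^*∇` with respect to the connection -/
def dl (u : M → V) : M → V := fun x => -∑ a, (α a x (cov F.toPre A a u x) +
  cov F.toPre A a (fun y => α a y (u y)) x + F.dv a x • α a x (u x))

/-- the scalar operator `∑ (D D + dv D)` -/
def Ls (F : Fr I M ι) (f : M → ℝ) : M → ℝ :=
  fun x => ∑ a, (F.D a (F.D a f) x + F.dv a x * F.D a f x)

theorem sm_Ls {f : M → ℝ} (hf : Sm I f) : Sm I (Ls F f) :=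
  contMDiff_finsetSum fun a _ => (F.sm_D (F.sm_D hf a) a).add ((F.dv_sm a).mul (F.sm_D hf a))

theorem Ls_off {f : M → ℝ} {x : M} (hx : x ∉ tsupport f) : Ls F f x = 0 := by
  have h0 : f =ᶠ[𝓝 x] fun _ => 0 := notMem_tsupport_iff_eventuallyEq.1 hx
  have h1 : ∀ a, F.D a f =ᶠ[𝓝 x] fun _ => 0 := fun a => by
    filter_upwards [h0.eventuallyEq_nhds] with y hy
    exact (Sob92.dv_congr hy).trans (congrFun (dv_const _) _)
  refine Finset.sum_eq_zero fun a _ => ?_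
  rw [(h1 a).eq_of_nhds,
    show F.D a (F.D a f) x = 0 from (Sob92.dv_congr (h1 a)).trans (congrFun (dv_const _) _)]
  simp

theorem sm_dl (hA : ∀ a, Sm I (A a)) (hα : ∀ a, Sm I (α a)) {u : M → V} (hu : Sm I u) :
    Sm I (dl F A α u) :=
  (contMDiff_finsetSum fun a _ => (((hα a).clm_apply (sm_cov _ hA hu a)).add
    (sm_cov _ hA ((hα a).clm_apply hu) a)).add (sm_smul (F.dv_sm a) ((hα a).clm_apply hu))).neg

theorem dl_zero : dl F A α 0 = 0 := funext fun x => by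
  have : ∀ a, cov F.toPre A a (fun _ => (0 : V)) x = 0 := fun a => by
    simp [cov, Pre.D, dv_const]
  simp only [dl, Pi.zero_apply, map_zero, smul_zero, add_zero]
  rw [show (0 : M → V) = fun _ => 0 from rfl]
  simp [this]

theorem dl_add (hα : ∀ a, Sm I (α a)) {u v : M → V} (hu : Sm I u) (hv : Sm I v) :
    dl F A α (u + v) = dl F A α u + dl F A α v := funext fun x => by
  have h1 : ∀ a, cov F.toPre A a (u + v) x = _ := fun a => cov_add _ A hu hv a x
  simp only [dl, Pi.add_apply, map_add, h1,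
    fun a => cov_add F.toPre A ((hα a).clm_apply hu) ((hα a).clm_apply hv) a x, ← neg_add,
    ← Finset.sum_add_distrib, smul_add]
  congr 1
  exact Finset.sum_congr rfl fun a _ => by abel

theorem dl_smul (hα : ∀ a, Sm I (α a)) {f : M → ℝ} {u : M → V} (hf : Sm I f) (hu : Sm I u) (x : M) :
    dl F A α (fun y => f y • u y) x =
      f x • dl F A α u x - (2 : ℝ) • ∑ a, F.D a f x • α a x (u x) := by
  simp only [dl, map_smul, map_add, cov_smul _ A hf hu,
    fun a => cov_smul F.toPre A hf ((hα a).clm_apply hu) a x, smul_neg, Finset.smul_sum,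
    sub_eq_add_neg, ← neg_add, ← Finset.sum_add_distrib]
  congr 1
  exact Finset.sum_congr rfl fun a _ => by module

theorem dl_csmul (hα : ∀ a, Sm I (α a)) (r : ℝ) {u : M → V} (hu : Sm I u) :
    dl F A α (r • u) = r • dl F A α u := funext fun x => by
  have := dl_smul (F := F) (A := A) hα (f := fun _ => r) contMDiff_const hu x
  simpa [Pre.D, dv_const, Pi.smul_def] using this

variable (K Ω F A α) in
/-- a space of jets of words -/
structure Jet (𝒥 : Submodule ℝ ((M → V) × (M → V))) : Prop where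
  cl : IsClopen K
  op : IsOpen Ω
  sub : Ω ⊆ K
  null : F.μ (K \ Ω) = 0
  sα : ∀ a, Sm I (α a)
  sm : ∀ j ∈ 𝒥, Sm I j.1 ∧ Sm I j.2
  mul : ∀ f, Tf I Ω f → ∀ j ∈ 𝒥, (fun x => f x • j.1 x, fun x => f x • j.2 x) ∈ 𝒥
  res : ∀ j ∈ 𝒥, ∃ j' ∈ 𝒥, F.IsRes A j.1 j'.1 ∧ F.IsRes A (j.2 - dl F A α j'.1) j'.2

/-- it is enough to check the closure properties on generators -/
theorem Jet.span (hA : ∀ a, Sm I (A a)) (cl : IsClopen K) (op : IsOpen Ω) (sub : Ω ⊆ K)
    (null : F.μ (K \ Ω) = 0) (sα : ∀ a, Sm I (α a)) {S : Set ((M → V) × (M → V))}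
    (sm : ∀ j ∈ S, Sm I j.1 ∧ Sm I j.2)
    (mul : ∀ f, Tf I Ω f → ∀ j ∈ S, (fun x => f x • j.1 x, fun x => f x • j.2 x) ∈ S)
    (res : ∀ j ∈ S, ∃ j' ∈ S, F.IsRes A j.1 j'.1 ∧ F.IsRes A (j.2 - dl F A α j'.1) j'.2) :
    Jet K Ω F A α (Submodule.span ℝ S) := by
  refine ⟨cl, op, sub, null, sα, fun j hj => ?_, fun f hf j hj => ?_, fun j hj => ?_⟩
  · induction hj using Submodule.span_induction with
    | mem j hj => exact sm j hj
    | zero => exact ⟨contMDiff_const, contMDiff_const⟩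
    | add u v _ _ hu hv => exact ⟨hu.1.add hv.1, hu.2.add hv.2⟩
    | smul r u _ hu => exact ⟨sm_smul contMDiff_const hu.1, sm_smul contMDiff_const hu.2⟩
  · induction hj using Submodule.span_induction with
    | mem j hj => exact Submodule.subset_span (mul f hf j hj)
    | zero => convert zero_mem (Submodule.span ℝ S) using 1; ext <;> simp
    | add u v _ _ hu hv => convert add_mem hu hv using 1; ext <;> simp
    | smul r u _ hu => convert Submodule.smul_mem _ r hu using 1; ext <;> simp [smul_comm r]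
  · induction hj using Submodule.span_induction with
    | mem j hj => exact let ⟨j', h1, h2⟩ := res j hj; ⟨j', Submodule.subset_span h1, h2⟩
    | zero => exact ⟨0, zero_mem _, Mp86.isRes_zero, by
        rw [Prod.fst_zero, dl_zero, Prod.snd_zero, sub_zero]; exact Mp86.isRes_zero⟩
    | add u v _ _ hu hv =>
      obtain ⟨u', a1, a2, a3⟩ := hu
      obtain ⟨v', b1, b2, b3⟩ := hv
      refine ⟨u' + v', add_mem a1 b1, Mp86.isRes_add hA a2 b2, ?_⟩
      rw [Prod.fst_add, dl_add sα a2.1 b2.1]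
      convert Mp86.isRes_add hA a3 b3 using 1
      · funext x; simp only [Prod.snd_add, Pi.sub_apply, Pi.add_apply]; abel
      · rfl
    | smul r u _ hu =>
      obtain ⟨u', a1, a2, a3⟩ := hu
      refine ⟨r • u', Submodule.smul_mem _ r a1, Mp86.isRes_smul hA r a2, ?_⟩
      rw [Prod.smul_fst, dl_csmul sα r a2.1]
      convert Mp86.isRes_smul hA r a3 using 1
      · funext x; simp only [Prod.smul_snd, Pi.sub_apply, Pi.smul_apply, smul_sub]
      · rfl

/-- the `q`-parts of the derivatives of the words which vanish at the point -/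
def Nrm (𝒥 : Submodule ℝ ((M → V) × (M → V))) (q : M → V →L[ℝ] V) : Set (M → V) :=
  {w | ∃ δ, (0, δ) ∈ 𝒥 ∧ w = fun x => q x (δ x)}

variable (K F A) in
/-- all words are multiples of the parallel unit section `ξ` -/
structure Abl (𝒥 : Submodule ℝ ((M → V) × (M → V))) (ξ : M → V) : Prop where
  sm : Sm I ξ
  par : ∀ a x, cov F.toPre A a ξ x = 0
  one : ∀ x ∈ K, ‖ξ x‖ = 1
  ax : ∀ j ∈ 𝒥, ∀ x ∈ K, j.1 x = ⟪ξ x, j.1 x⟫_ℝ • ξ x
  con : IsPreconnected K
  ne : ∃ j ∈ 𝒥, ∃ x ∈ K, j.1 x ≠ 0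

namespace Jet
variable {𝒥 : Submodule ℝ ((M → V) × (M → V))} (c : Jet K Ω F A α 𝒥) (h : RH F A)
  {q : M → V →L[ℝ] V} {ξ : M → V}
include c h

theorem fam₁ : Fam K Ω F A (Prod.fst '' (𝒥 : Set ((M → V) × (M → V)))) := by
  refine ⟨c.cl, c.op, c.sub, c.null, ?_, ?_, ?_⟩
  · rintro _ ⟨j, hj, rfl⟩; exact (c.sm j hj).1
  · rintro f hf _ ⟨j, hj, rfl⟩; exact ⟨_, c.mul f hf j hj, rfl⟩
  · rintro _ ⟨j, hj, rfl⟩
    obtain ⟨j', h1, h2, -⟩ := c.res j hj
    exact ⟨j', h1, (Mp86.res_eq h.bmp h.mc h2).symm⟩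

theorem fam (hq : PP F A q) : Fam K Ω F A (Nrm 𝒥 q) := by
  refine ⟨c.cl, c.op, c.sub, c.null, ?_, ?_, ?_⟩
  · rintro _ ⟨δ, hδ, rfl⟩; exact hq.sm.clm_apply (c.sm _ hδ).2
  · rintro f hf _ ⟨δ, hδ, rfl⟩
    refine ⟨fun x => f x • δ x, ?_, by simp⟩
    convert c.mul f hf _ hδ using 2
    funext x; simp
  · rintro _ ⟨δ, hδ, rfl⟩
    obtain ⟨⟨s', δ'⟩, h1, h2, h3⟩ := c.res _ hδ
    obtain rfl : s' = 0 := Mp86.isRes_unique h.bmp h.mc h2 Mp86.isRes_zero
    rw [dl_zero, sub_zero] at h3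
    exact ⟨δ', h1, Mp86.res_eq h.bmp h.mc (hq.isRes h.mc.sm h3)⟩

variable (b : Abl K F A 𝒥 ξ)
include b

theorem exists_ne {x : M} (hx : x ∈ K) : ∃ j ∈ 𝒥, ⟪ξ x, j.1 x⟫_ℝ ≠ 0 := by
  by_contra hn
  push Not at hn
  obtain ⟨π, p⟩ := (c.fam₁ h).exists_prj h
  obtain ⟨j, hj, y, hy, h0⟩ := b.ne
  refine p.ne_zero b.con ⟨j, hj, rfl⟩ hy h0 hx ?_
  ext v
  refine prj_pt (c.fam₁ h) h p ?_
  rintro _ ⟨j, hj, rfl⟩
  rw [b.ax j hj x hx, hn j hj, zero_smul, inner_zero_right]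

variable (hq : PP F A q) (h0 : ∀ w ∈ Nrm 𝒥 q, ∀ x ∈ K, w x = 0)
include hq h0

theorem cross {j j' : (M → V) × (M → V)} (hj : j ∈ 𝒥) (hj' : j' ∈ 𝒥) : ∀ x ∈ K,
    ⟪ξ x, j'.1 x⟫_ℝ • q x (j.2 x) = ⟪ξ x, j.1 x⟫_ℝ • q x (j'.2 x) := by
  have s1 := sm_inner b.sm (c.sm j hj).1
  have s2 := sm_inner b.sm (c.sm j' hj').1
  refine (c.fam₁ h).ext (sm_smul s2 (hq.sm.clm_apply (c.sm j hj).2)).continuous
    (sm_smul s1 (hq.sm.clm_apply (c.sm j' hj').2)).continuous c.cl.2 Subset.rfl fun x hx => ?_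
  obtain ⟨f, hf, f1⟩ := exists_tf (I := I) (c.op.mem_nhds hx.2)
  have h1 := sub_mem (c.mul _ (hf.mul s2) j hj) (c.mul _ (hf.mul s1) j' hj')
  have h2 := h0 _ ⟨fun y => (⟪ξ y, j'.1 y⟫_ℝ * f y) • j.2 y - (⟪ξ y, j.1 y⟫_ℝ * f y) • j'.2 y, by
    convert h1 using 1
    refine Prod.ext (funext fun y => ?_) rfl
    by_cases hy : y ∈ K
    · simp only [Pi.zero_apply, Prod.fst_sub, Pi.sub_apply]
      have e1 := b.ax j hj y hy
      have e2 := b.ax j' hj' y hy
      generalize ⟪ξ y, j.1 y⟫_ℝ = s at e1 ⊢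
      generalize ⟪ξ y, j'.1 y⟫_ℝ = t at e2 ⊢
      rw [e1, e2]
      module
    · simp [image_eq_zero_of_notMem_tsupport fun h => hy (c.sub (hf.sub h))], rfl⟩ x hx.1
  simpa [f1, sub_eq_zero] using h2

theorem exists_quot : ∃ ζ : M → V, Sm I ζ ∧ (∀ x ∉ K, ζ x = 0) ∧ (∀ x, q x (ζ x) = ζ x) ∧
    ∀ j ∈ 𝒥, ∀ x ∈ K, q x (j.2 x) = ⟪ξ x, j.1 x⟫_ℝ • ζ x := by
  classical
  choose j hj hne using fun x (hx : x ∈ K) => c.exists_ne h b hx
  let ζ : M → V := fun x =>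
    if hx : x ∈ K then (⟪ξ x, (j x hx).1 x⟫_ℝ)⁻¹ • q x ((j x hx).2 x) else 0
  have h1 : ∀ i ∈ 𝒥, ∀ x ∈ K, q x (i.2 x) = ⟪ξ x, i.1 x⟫_ℝ • ζ x := fun i hi x hx => by
    simp only [ζ, dif_pos hx]
    rw [smul_comm, ← c.cross h b hq h0 hi (hj x hx) x hx, inv_smul_smul₀ (hne x hx)]
  refine ⟨ζ, fun x => ?_, fun x hx => dif_neg hx, fun x => ?_, h1⟩
  · by_cases hx : x ∈ K
    · have s1 := sm_inner b.sm (c.sm _ (hj x hx)).1
      refine (((s1 x).inv₀ (hne x hx)).smul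
        (hq.sm.clm_apply (c.sm _ (hj x hx)).2 x)).congr_of_eventuallyEq ?_
      filter_upwards [c.cl.2.mem_nhds hx, s1.continuous.continuousAt.eventually_ne (hne x hx)]
        with y h2 h3
      rw [Pi.smul_apply', h1 _ (hj x hx) y h2, inv_smul_smul₀ h3]
    · refine (contMDiffAt_const (c := (0 : V))).congr_of_eventuallyEq ?_
      filter_upwards [c.cl.1.isOpen_compl.mem_nhds hx] with y hy using dif_neg hy
  · by_cases hx : x ∈ K <;> simp [ζ, hx, hq.idem]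

/-- **If the normal derivatives vanish then the direction is exact.** -/
theorem exact (hP : ∀ a x, ∑ l, F.P a l x • α l x = α a x) :
    ∃ ζ : M → V, Sm I ζ ∧ (∀ x ∉ K, ζ x = 0) ∧ (∀ x, q x (ζ x) = ζ x) ∧
      (∀ j ∈ 𝒥, ∀ x ∈ K, q x (j.2 x) = ⟪ξ x, j.1 x⟫_ℝ • ζ x) ∧
      ∀ a, ∀ x ∈ K, cov F.toPre A a ζ x = -q x (α a x (ξ x)) := by
  obtain ⟨ζ, z1, z2, z3, z4⟩ := c.exists_quot h b hq h0
  refine ⟨ζ, z1, z2, z3, z4, fun a => (c.fam₁ h).ext (sm_cov _ h.mc.sm z1 a).continuous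
    (hq.sm.clm_apply ((c.sα a).clm_apply b.sm)).neg.continuous c.cl.2 Subset.rfl fun x hx => ?_⟩
  obtain ⟨j, hj, hne⟩ := c.exists_ne h b hx.1
  have s1 := sm_inner b.sm (c.sm j hj).1
  set O := Ω ∩ {y | ⟪ξ y, j.1 y⟫_ℝ ≠ 0}
  have hO : O ∈ 𝓝 x := inter_mem (c.op.mem_nhds hx.2)
    (s1.continuous.continuousAt.eventually_ne hne)
  have l1 : ∀ y, lap1 F A ξ y = ξ y := fun y => by
    have : ∀ a, cov F.toPre A a ξ = fun _ => 0 := fun a => funext (b.par a)
    simp only [lap1, this]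
    simp [cov, Pre.D, dv_const]
  have key : ∀ φ, Tf I O φ → φ x • (lap1 F A ζ x + q x (dl F A α ξ x) - ζ x) =
      (2 : ℝ) • ∑ a, F.D a φ x • (cov F.toPre A a ζ x + q x (α a x (ξ x))) := by
    intro φ hφ
    have hψ : ∀ y ∉ tsupport φ, φ y - Ls F φ y = 0 := fun y hy => by
      rw [image_eq_zero_of_notMem_tsupport hy, Ls_off hy, sub_zero]
    let f : M → ℝ := fun y => (φ y - Ls F φ y) * (⟪ξ y, j.1 y⟫_ℝ)⁻¹
    have hs : tsupport f ⊆ tsupport φ := closure_minimal (fun y hy => by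
      by_contra h; exact hy (by simp [f, hψ y h])) (isClosed_tsupport _)
    have hf : Tf I Ω f := by
      refine ⟨contMDiff_of_tsupport fun y hy => ((hφ.sm.sub (sm_Ls hφ.sm)) y).mul
        ((s1 y).inv₀ (hφ.sub (hs hy)).2), hφ.hcs.of_isClosed_subset (isClosed_tsupport _) hs,
        fun y hy => (hφ.sub (hs hy)).1⟩
    have hfh : ∀ y, f y * ⟪ξ y, j.1 y⟫_ℝ = φ y - Ls F φ y := fun y => by
      by_cases hy : y ∈ tsupport φ
      · exact inv_mul_cancel_right₀ (hφ.sub hy).2 _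
      · simp [f, hψ y hy]
    have hoff : ∀ y ∉ K, y ∉ tsupport φ := fun y hy h => hy (c.sub (hφ.sub h).1)
    obtain ⟨⟨s', δ'⟩, h1, h2, h3⟩ := c.res _ (c.mul f hf j hj)
    have e1 : lap1 F A (fun y => φ y • ξ y) = fun y => f y • j.1 y := funext fun y => by
      rw [lap1_smul F h.mc.sm hφ.sm b.sm, l1]
      simp only [b.par, smul_zero, Finset.sum_const_zero, sub_zero]
      rw [← sub_smul]
      change (φ y - Ls F φ y) • ξ y = _
      by_cases hy : y ∈ K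
      · rw [b.ax j hj y hy, smul_smul, hfh]
      · simp [f, hψ y (hoff y hy)]
    obtain rfl : s' = fun y => φ y • ξ y := Mp86.isRes_unique h.bmp h.mc h2
      (e1 ▸ isRes_lap1 (sm_smul hφ.sm b.sm) hφ.hcs.smul_right)
    have e2 : (fun y => q y (δ' y)) =ᶠ[𝓝 x] fun y => φ y • ζ y := by
      filter_upwards [c.cl.2.mem_nhds hx.1] with y hy
      rw [z4 _ h1 y hy, real_inner_smul_right, real_inner_self_eq_norm_sq, b.one y hy]; simp
    have e3 : lap1 F A (fun y => q y (δ' y)) x = lap1 F A (fun y => φ y • ζ y) x := by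
      simp only [lap1_eq, e2.eq_of_nhds]
      exact congrArg _ (congrArg Neg.neg (Mp86.LA_congr e2))
    rw [hq.lap1 h.mc.sm h3.1, (isRes_iff.1 h3).2.2, lap1_smul F h.mc.sm hφ.sm z1] at e3
    simp only [Pi.sub_apply, dl_smul c.sα hφ.sm b.sm, map_sub, map_smul, map_sum,
      z4 j hj x hx.1, smul_smul, hfh] at e3
    simp only [smul_add, smul_sub, Finset.sum_add_distrib]
    rw [sub_smul] at e3
    change _ = _ - _ - Ls F φ x • ζ x at e3
    linear_combination (norm := module) -e3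
  obtain ⟨χ, c1, c2, c3, c4⟩ := exists_bump (I := I) hO
  have k0 := key χ ⟨c1, c2, c3⟩
  have d0 : ∀ a, F.D a χ x = 0 := fun a => (Sob92.dv_congr c4).trans (congrFun (dv_const _) _)
  simp only [c4.eq_of_nhds, Pi.one_apply, one_smul, d0, zero_smul, Finset.sum_const_zero,
    smul_zero] at k0
  obtain ⟨η, hη⟩ := exists_covector F x a
  obtain ⟨φ, p1, p2, p3, p4⟩ := exists_fun_deriv (I := I) hO η
  have k1 := key φ ⟨p1, p2, p3⟩
  have d1 : ∀ l, F.D l φ x = F.P a l x := fun l => (p4 _).trans (hη l)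
  rw [k0, smul_zero, eq_comm, smul_eq_zero_iff_right two_ne_zero] at k1
  simp only [d1, cov, smul_add, Finset.sum_add_distrib, P_D] at k1
  rw [eq_neg_iff_add_eq_zero, ← k1, cov, ← h.proj a x, ← hP a x]
  simp

end Jet

/-- the direction `α` is exact in the bundle `q` -/
def Exa (K : Set M) (F : Fr I M ι) (A α : ι → M → V →L[ℝ] V) (q : M → V →L[ℝ] V) (ξ : M → V) :
    Prop := ∃ ζ : M → V, Sm I ζ ∧ (∀ x ∉ K, ζ x = 0) ∧ (∀ x, q x (ζ x) = ζ x) ∧
      ∀ a, ∀ x ∈ K, cov F.toPre A a ζ x = -q x (α a x (ξ x))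

/-- **The alternative**: the projector of the normal derivatives is `q`, or `α` is exact. -/
theorem Jet.alt {𝒥 : Submodule ℝ ((M → V) × (M → V))} (c : Jet K Ω F A α 𝒥) (h : RH F A)
    {q : M → V →L[ℝ] V} {ξ : M → V} (b : Abl K F A 𝒥 ξ) (hq : PP F A q) (hi : Irr F A K q)
    (hP : ∀ a x, ∑ l, F.P a l x • α l x = α a x) :
    (∃ π, Prj K Ω F A (Nrm 𝒥 q) π ∧ ∀ x ∈ K, π x = q x) ∨ Exa K F A α q ξ := by
  obtain ⟨π, p⟩ := (c.fam h hq).exists_prj h
  refine (hi π p.pp fun x v => (p.le c.cl.2 hq.sm hq.symm ?_ x v).2).symm.imp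
    (fun e => ⟨π, p, e⟩) fun e => ?_
  · rintro _ ⟨δ, -, rfl⟩ x; exact hq.idem x _
  · obtain ⟨ζ, z1, z2, z3, -, z4⟩ :=
      c.exact h b hq (fun w hw x hx => by rw [← p.fix w hw x hx, e x hx]; rfl) hP
    exact ⟨ζ, z1, z2, z3, z4⟩

end Crest.Agent.X212.Nt92
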