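import Crest.Agent.X212.Nt92.Gau

/-!
# Row 212, NT (helper92), part 7: normal derivatives of curvature words at an abelian point
-/

set_option autoImplicit false
set_option linter.unusedSectionVars false
noncomputable section
open scoped Manifold ContDiff Topology InnerProductSpace
open MeasureTheory Set Function Filter

namespace Crest.Agent.X212.Nt92
open An Sob92 Wrd81 Wz78

variable {E : Type} [NormedAddCommGroup E] [NormedSpace ℝ E] [FiniteDimensional ℝ E]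
  [MeasurableSpace E] [BorelSpace E]
  {HM : Type} [TopologicalSpace HM] {I : ModelWithCorners ℝ E HM} [I.Boundaryless]
  {M : Type} [TopologicalSpace M] [ChartedSpace HM M] [IsManifold I ∞ M]
  [MeasurableSpace M] [T2Space M] [BorelSpace M] [SecondCountableTopology M]
  {ι : Type} [Fintype ι] {ι' : Type} [Fintype ι'] {lam : Type} [Fintype lam] {r n : ℕ}
  {m : Md M ι lam} {B : Base M ι lam} {G : Geo I M ι lam} {W : m.Cn} {α : M → Fm ι m.A}
  {K Ω : Set M} {ξ : M → m.A}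

theorem ap_mono {V : Type} [NormedAddCommGroup V] [InnerProductSpace ℝ V] [FiniteDimensional ℝ V]
    {F : Pre I M ι} {k : ℕ} {S T : Set (M → V)} (h : S ⊆ T) {u : M → V} (hu : u ∈ Ap F k S) :
    u ∈ Ap F k T :=
  let ⟨a, b⟩ := mem_Ap.1 hu
  mem_Ap.2 ⟨a, cl_le (isClosed_cl _) (by rintro _ ⟨v, hv, e⟩; exact mem_cl ⟨v, h hv, e⟩) b⟩

variable (G W K) in
/-- on the piece `K` the connection is abelian with axis `ξ` and not flat -/
structure Ab (ξ : M → m.A) : Prop where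
  sm : Sm I ξ
  mem : ∀ x, ξ x ∈ m.gS x
  par : ∀ a x, nab I G.F.e (m.adW W) a ξ x = 0
  one : ∀ x ∈ K, ‖ξ x‖ = 1
  off : ∀ x ∉ K, ξ x = 0
  cl : IsClopen K
  con : IsPreconnected K
  ne : ∃ y ∈ K, m.Fg G.F W y ≠ 0

/-- the projector onto the normal plane `ξ^⊥ ⊆ g` -/
def qL (ξ : M → m.A) (x : M) : m.A →L[ℝ] m.A := m.pg x - rkB _ (ξ x) (ξ x)

theorem qL_apply (x : M) (v : m.A) : qL ξ x v = m.pg x v - ⟪ξ x, v⟫_ℝ • ξ x := rfl

variable (I m) in
/-- `δ` is the derivative along `W + t α` of a combination of curvature words vanishing at `W` -/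
def ND (F : Fr I M ι) (W : m.Cn) (α : M → Fm ι m.A) (Ω : Set M) (δ : M → m.A) : Prop :=
  ∃ w : AW M →₀ ℝ, (∀ u ∈ w.support, CvIn I Ω u) ∧
    (∀ x, (w.sum fun u c => c • cw m F W u x) = 0) ∧ Sm I δ ∧
    ∀ x, HasDerivAt (fun t => w.sum fun u c => c • cw m F (lnW m W α t) u x) (δ x) 0

namespace Ab
variable (b : Ab G W K ξ)
include b

theorem one_or (x : M) : ‖ξ x‖ = 1 ∨ ξ x = 0 := (em (x ∈ K)).imp (b.one x) (b.off x)

theorem qL_mem (x : M) (v : m.A) : qL ξ x v ∈ m.gS x :=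
  sub_mem (pg_mem x v) (Submodule.smul_mem _ _ (b.mem x))

theorem inner_qL (x : M) (v : m.A) : ⟪ξ x, qL ξ x v⟫_ℝ = 0 := by
  rw [qL_apply, inner_sub_right, ← inner_pg, pg_of_mem (b.mem x), real_inner_smul_right]
  rcases b.one_or x with h | h <;> simp [h]

theorem J_xi (x : M) : adc (opL (ξ x)) (ξ x) = 0 := by simp [adc_apply]

theorem J_qL (x : M) {v : m.A} (hv : v ∈ m.gS x) :
    adc (opL (ξ x)) (qL ξ x v) = adc (opL (ξ x)) v := by
  rw [qL_apply, map_sub, map_smul, b.J_xi, pg_of_mem hv, smul_zero, sub_zero]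

theorem qL_J (x : M) {v : m.A} (hv : v ∈ m.gS x) :
    qL ξ x (adc (opL (ξ x)) v) = adc (opL (ξ x)) v := by
  have := adc_skw (g_skw (b.mem x)) (ξ x) v
  rw [b.J_xi, inner_zero_left, zero_eq_neg] at this
  rw [qL_apply, pg_of_mem (adc_mem (b.mem x) hv), this, zero_smul, sub_zero]

variable (h : Dir B G W α)
include h

theorem pp_rk : PP G.F (m.adW W) fun x => rkB _ (ξ x) (ξ x) :=
  PP.rk (adW_skw h.conn) b.sm b.par b.one_or

theorem pp : PP G.F (m.adW W) (qL ξ) :=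
  (PP.of_nabE h.spg inner_pg pg_pg (pg_par h.ok h.conn h.spg)).sub (b.pp_rk h)
    (fun x v => by rw [rkB_apply, map_smul, pg_of_mem (b.mem x)])
    fun x v => by rw [rkB_apply, rkB_apply, ← inner_pg, pg_of_mem (b.mem x)]

theorem Fg_ax {x : M} (hx : x ∈ K) (s : ι × ι) :
    m.Fg G.F W x s = ⟪ξ x, m.Fg G.F W x s⟫_ℝ • ξ x := by
  have h1 := (gfrm h.hG).nab_comm (fun a => h.cnW.sm a x) s.1 s.2 (b.sm x)
  have z : ∀ a, nab I G.F.e (m.adW W) a ξ = fun _ => 0 := fun a => funext (b.par a)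
  rw [curv_adW_g h.hB h.hG h.ok h.conn _ _ (b.mem x), z, z] at h1
  simp only [b.par, smul_zero, Finset.sum_const_zero] at h1
  simp only [nab, dv_const, Pi.zero_apply, map_zero, add_zero, sub_zero] at h1
  have h2 := congrArg opL h1
  rw [opL_adc, map_zero, eq_comm, sub_eq_zero] at h2
  simpa [b.one x hx] using Std94.g_comm h.hB (Std94.pmx h.ok x) (b.mem x) (Fg_mem G.F s) h2.symm

omit b in
theorem _root_.Crest.Agent.X212.Nt92.Dir.hi_seed {f g k : M → ℝ} (hf : Tf I Ω f) (hg : Tf I Ω g)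
    (hk : Tf I Ω k) : HI G.F fun x =>
      ∑ s : ι × ι, (f x * G.F.D s.1 g x * G.F.D s.2 k x) • m.Fg G.F W x s :=
  HI.sum _ fun s => HI.of_hcs (sm_smul ((hf.sm.mul (G.F.sm_D hg.sm _)).mul (G.F.sm_D hk.sm _))
    (sm_Fg h.hG h.conn h.spg s)) hf.hcs.mul_right.mul_right.smul_right

theorem cw_ax {u : AW M} (hu : CvIn I Ω u) {x : M} (hx : x ∈ K) :
    cw m G.F W u x = ⟪ξ x, cw m G.F W u x⟫_ℝ • ξ x := by
  have R := (PP.ind (F := G.F) (A := m.adW W) b.cl).sub (b.pp_rk h)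
    (fun x v => by by_cases hx : x ∈ K <;> simp [hx, b.off])
    fun x v => by by_cases hx : x ∈ K <;> simp [hx, b.off]
  have t := h.tame.choose_spec
  suffices ∀ y, (K.indicator (1 : M → ℝ) y • (1 : m.A →L[ℝ] m.A) - rkB _ (ξ y) (ξ y))
      (cw m G.F W u y) = 0 by simpa [hx, sub_eq_zero] using this x
  obtain ⟨s, l⟩ := u
  obtain ⟨⟨h1, h2⟩, f, g, k, rfl⟩ := hu
  induction l with
  | nil =>
    have a := (h.hi_seed h1.1 h1.2.1 h1.2.2).res t h.rh
    refine R.res_zero h.rh (a.2.res t h.rh).1 (R.res_zero h.rh a.1 fun y => ?_)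
    rw [map_sum]
    refine Finset.sum_eq_zero fun s _ => ?_
    by_cases hy : y ∈ K
    · simpa [hy, sub_eq_zero] using .inr (b.Fg_ax h hy s)
    · simp [hy, b.off]
  | cons l₀ l ih =>
    have h3 : LlIn I Ω l := fun t k => h2 t (List.mem_cons_of_mem _ k)
    have ih := ih h1 h3
    cases l₀ with
    | mul φ => exact fun y => (map_smul _ _ _).trans ((congrArg _ (ih y)).trans (smul_zero _))
    | G => exact R.res_zero h.rh ((h.hi_cw (ξ := ⟨.cv f g k, l⟩)
        ⟨⟨h1, h3⟩, f, g, k, rfl⟩).res t h.rh).1 ih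

variable (op : IsOpen Ω) (null : G.F.μ (K \ Ω) = 0)
include op null

theorem abl : Abl K G.F (m.adW W) (JJ I m G.F W α Ω) ξ := by
  refine ⟨b.sm, b.par, b.one, fun j hj x hx => ?_, b.con, ?_⟩
  · induction hj using Submodule.span_induction with
    | mem j hj =>
      obtain ⟨u, hu, rfl⟩ := hj
      rw [h.jet_fst hu]; exact b.cw_ax h hu hx
    | zero => simp
    | add u v _ _ hu hv =>
      rw [Prod.fst_add, Pi.add_apply, inner_add_right, add_smul, ← hu, ← hv]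
    | smul r u _ hu =>
      rw [Prod.smul_fst, Pi.smul_apply, real_inner_smul_right, mul_smul, ← hu]
  by_contra! h0
  obtain ⟨y, hy, hne⟩ := b.ne
  refine hne (PiLp.ext fun s => ((h.jet b.cl op null).fam₁ h.rh).ext
    (sm_Fg h.hG h.conn h.spg s).continuous continuous_const b.cl.2 Subset.rfl (fun x hx => ?_) y hy)
  obtain ⟨f, hf, f1⟩ := exists_tf (I := I) (op.mem_nhds hx.2.1)
  obtain ⟨g, hg, e⟩ := exists_tf_D G.F (op.mem_nhds hx.2.1) s.1
  obtain ⟨k, hk, e'⟩ := exists_tf_D G.F (op.mem_nhds hx.2.1) s.2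
  have hu : CvIn I Ω ⟨.cv f g k, []⟩ := ⟨⟨⟨hf, hg, hk⟩, llIn_nil⟩, f, g, k, rfl⟩
  have a := (h.hi_seed hf hg hk).res h.tame.choose_spec h.rh
  have a3 := zero_of_isRes b.cl.2 a.1 (zero_of_isRes b.cl.2 (a.2.res h.tame.choose_spec h.rh).1
    fun z hz => (congrFun (h.jet_fst hu) z).symm.trans
      (h0 _ (Submodule.subset_span ⟨_, hu, rfl⟩) z hz)) x hx.1
  have c : ∀ a, ∑ t, B.P s.2 t x • m.Fg G.F W x (a, t) = m.Fg G.F W x (a, s.2) := fun a => by
    rw [← neg_inj, ← Fg_swap h.hG h.conn, Prod.swap_prod_mk, ← Fg_proj h.hG h.conn,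
      ← Finset.sum_neg_distrib]
    exact Finset.sum_congr rfl fun t _ => by rw [← smul_neg, ← Fg_swap h.hG h.conn]; rfl
  simp only [f1, one_smul, e, e', h.hG.P, Fintype.sum_prod_type, mul_smul, ← Finset.smul_sum,
    c, Fg_proj h.hG h.conn] at a3
  exact a3

omit op null in
theorem irr : Irr G.F (m.adW W) K (qL ξ) := by
  obtain ⟨y, hy, hne⟩ := b.ne
  refine irr_of_curv h.cnW.sm b.con (b.pp h) hy fun T h1 h2 h3 h4 => ?_
  refine zero_or_all (Std94.finrank_g h.hB (Std94.pmx h.ok y)) (b.mem y) (b.one y hy)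
    (J := adc (opL (ξ y))) (adc_skw (g_skw (b.mem y))) (b.J_xi y)
    (fun v => adc_mem (b.mem y)) (fun v hv e o => ?_) (b.qL_mem y) (b.inner_qL y) h1 h2 h3
    fun v => ?_
  · have := Std94.adc_adc h.hB (Std94.pmx h.ok y) (b.mem y) hv
    simpa [e, o, b.one y hy] using this
  · obtain ⟨s, hs⟩ : ∃ s, m.Fg G.F W y s ≠ 0 := by
      by_contra! k; exact hne (PiLp.ext k)
    have e := b.Fg_ax h hy s
    have c0 : ⟪ξ y, m.Fg G.F W y s⟫_ℝ ≠ 0 := fun k => hs (by rw [e, k, zero_smul])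
    have k := congrArg (· (T v)) (h4 s.1 s.2)
    simp only [mul_apply_eq_comp, h1] at k
    rw [curv_adW_g h.hB h.hG h.ok h.conn _ _ (h2 v ▸ b.qL_mem y _), e, map_smul, ← adcL_apply,
      map_smul, smul_apply, map_smul] at k
    exact (smul_right_injective _ c0 k).symm

omit op null in
/-- the exact case: the normal part of `α` is an infinitesimal gauge transformation -/
theorem of_exa (e : Exa K G.F (m.adW W) (adA m α) (qL ξ) ξ) : ∃ η : M → m.A, Sm I η ∧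
    (∀ x ∉ K, η x = 0) ∧ (∀ x, qL ξ x (η x) = η x) ∧
    ∀ a, ∀ x ∈ K, nab I G.F.e (m.adW W) a η x = qL ξ x (α x a) := by
  obtain ⟨ζ, z1, z2, z3, z4⟩ := e
  have sJ : Sm I fun x => adc (opL (ξ x)) := (adcL ∘L opL).contMDiff.comp b.sm
  have zm : ∀ x, ζ x ∈ m.gS x := fun x => z3 x ▸ b.qL_mem x _
  refine ⟨fun x => (-4 : ℝ) • adc (opL (ξ x)) (ζ x), sm_smul contMDiff_const (sJ.clm_apply z1),
    fun x hx => by simp [z2 x hx], fun x => by rw [map_smul, b.qL_J x (zm x)], fun a x hx => ?_⟩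
  have p : nabE I G.F.e (m.adW W) a (fun x => adc (opL (ξ x))) x = 0 := by
    refine (nab_map (A := fun a y => ad _ (W a y)) (A' := fun a y => ad _ (m.adW W a y)) adcL a
      (adc_lie _ _).symm (SA.clm opL (b.sm x))).trans ?_
    have := opL_nab (e := G.F.e) (W := W) a (b.sm x)
    rw [b.par, map_zero] at this
    exact (congrArg adcL this).trans (map_zero _)
  have q : adA m α a x (ξ x) = -adc (opL (ξ x)) (α x a) := by
    simp [adA, adc_apply]
  rw [nab_csmul a _ (SA.app (sJ x) (z1 x)), nab_app' a (sJ x) (z1 x), p,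
    show nab _ _ _ a ζ x = _ from z4 a x hx, q, map_neg (qL ξ x), neg_neg, b.qL_J x (h.mem x a),
    Std94.adc_adc h.hB (Std94.pmx h.ok x) (b.mem x) (h.mem x a), b.one x hx, qL_apply, pg_of_mem (h.mem x a)]
  simp only [zero_apply]
  module

omit b op null in
theorem _root_.Crest.Agent.X212.Nt92.Dir.nd {δ : M → m.A} (k : (0, δ) ∈ JJ I m G.F W α Ω) :
    ND I m G.F W α Ω δ := by
  obtain ⟨w, hw, e⟩ := (Finsupp.mem_span_image_iff_linearCombination ℝ).1 k
  have hs : ∀ u ∈ w.support, CvIn I Ω u := fun u hu => hw hu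
  rw [Finsupp.linearCombination_apply, Finsupp.sum] at e
  have e1 := congrArg Prod.fst e
  have e2 := congrArg Prod.snd e
  simp only [Prod.fst_sum, Prod.snd_sum, Prod.smul_fst, Prod.smul_snd] at e1 e2
  refine ⟨w, hs, fun x => ?_, ?_, fun x => ?_⟩
  · rw [Finsupp.sum, ← Pi.zero_apply (M := fun _ => m.A) x, ← e1, Finset.sum_apply]
    exact Finset.sum_congr rfl fun u hu => by rw [h.jet_fst (hs u hu)]; rfl
  · rw [← e2, Finset.sum_fn]
    exact contMDiff_finsetSum fun u hu => sm_smul contMDiff_const (h.dj (hs u hu)).2.hd.sm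
  · rw [← e2, Finset.sum_apply]
    exact HasDerivAt.fun_sum fun u hu => (h.hasDerivAt (hs u hu) x).const_smul (w u)

/-- **NT.** At an abelian non-flat point either the normal part of `α` is `∇ η`, or the normal
derivatives of the words which vanish at the point are dense (as self-dual forms, in every `H k`)
and span the normal plane at every point. -/
theorem nt : (∃ η : M → m.A, Sm I η ∧ (∀ x ∉ K, η x = 0) ∧ (∀ x, qL ξ x (η x) = η x) ∧
      ∀ a, ∀ x ∈ K, nab I G.F.e (m.adW W) a η x = qL ξ x (α x a)) ∨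
    (∀ O, IsOpen O → O ⊆ Ω ∩ K → ∀ (F' : Pre I M ι') (k : ℕ) (u : M → Fm (ι × ι) m.A), Sm I u →
      HasCompactSupport u → tsupport u ⊆ O → (∀ x, idx (B.sd x) (qL ξ x) (u x) = u x) →
      u ∈ Ap F' k {v | ∃ g g', Tf I O g ∧ Tf I O g' ∧ ∃ δ, ND I m G.F W α Ω δ ∧
        v = fun x => idx (B.sd x) (qL ξ x) (wg G.F m.A g g' x (δ x))}) ∧
    ∀ x ∈ K, ∀ v, (∀ δ, ND I m G.F W α Ω δ → ⟪qL ξ x v, δ x⟫_ℝ = 0) → qL ξ x v = 0 := by
  have c := h.jet b.cl op null
  refine (c.alt h.rh (b.abl h op null) (b.pp h) (b.irr h) h.cnA.proj).symm.imp (b.of_exa h) ?_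
  rintro ⟨π, p, e⟩
  refine ⟨fun O hO hΩ F' k u hu hc hs hq => ap_mono ?_ (ap_two h.hB h.hG.P (c.fam h.rh (b.pp h))
    p (b.pp h) e hO hΩ F' k hu hc hs hq), fun x hx v hv => ?_⟩
  · rintro _ ⟨g, g', hg, hg', _, ⟨δ, hδ, rfl⟩, rfl⟩
    refine ⟨g, g', hg, hg', δ, h.nd hδ, funext fun x => ?_⟩
    ext1 s
    simp [wg_apply, (b.pp h).idem]
  · rw [← e x hx]
    refine prj_pt (c.fam h.rh (b.pp h)) h.rh p ?_
    rintro _ ⟨δ, hδ, rfl⟩
    rw [← (b.pp h).symm]
    exact hv δ (h.nd hδ)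

end Ab

variable (m G W K) in
/-- a parallel half of the module over `K` -/
structure Hv (q : M → En (Fin m.N)) : Prop where
  pp : PP G.F W q
  p : ∀ x, m.p x * q x = q x
  J : ∀ x, q x * m.J = m.J * q x
  ρ : ∀ a x, q x * m.ρ a x = m.ρ a x * q x
  j : ∀ x ∈ K, ∀ s, q x * m.j x s * q x = 0

/-- **NT, Dirac block.** The linear words on a spinor `Φ ≠ 0` of a parallel half are dense in the
half and span it at every point. -/
theorem dirac {c : Cfg M ι lam r} (h : Pc c B G K Ω) {q : M → En (Fin c.m.N)}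
    (hq : Hv c.m G c.W K q) (hΦ : ∀ x, q x (c.Φ x) = c.Φ x) (hK : IsPreconnected K)
    (h0 : ∃ y ∈ K, c.Φ y ≠ 0) :
    (∀ (F' : Pre I M ι') (k : ℕ) (P : Tm M lam r n → Prop), (∀ u, P (.lin u)) →
      ∀ u : M → c.m.V, Sm I u → HasCompactSupport u → tsupport u ⊆ Ω ∩ K →
      (∀ x, c.m.pm B x (u x) = u x) → (∀ x, q x (u x) = u x) → u ∈ Ap F' k (TD c B Ω G.F P)) ∧
    ∀ x ∈ K, ∀ v, (∀ w, SwIn I Ω w → ⟪q x v, c.sw G.F w x⟫_ℝ = 0) → q x v = 0 := by
  obtain ⟨π, p⟩ := h.exists_sp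
  obtain ⟨y, hy, h0⟩ := h0
  have h1 : ∀ w ∈ SWs c Ω G.F, ∀ x, q x (w x) = w x := by
    rintro _ ⟨u, hu, rfl⟩
    refine (sw_ind (P := fun w => Sm I w ∧ ∀ x, q x (w x) = w x) ⟨h.sm, hΦ⟩
      (fun t a ht ha => ?_) hu).2
    cases t with
    | mul f => exact ⟨sm_smul ht.sm ha.1, fun x => (map_smul _ _ _).trans (congrArg _ (ha.2 x))⟩
    | cl g => exact ⟨lt_cl G.F _ a ▸ (h.sm_cl ht.sm).clm_apply ha.1, fun x => by
        simp only [Cfg.lt, map_sum, map_smul, ← mul_apply_eq_comp (q x), hq.ρ]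
        simp only [mul_apply_eq_comp, ha.2]⟩
    | im => exact ⟨c.m.J.contMDiff.comp ha.1, fun x => by
        rw [Cfg.lt, ← mul_apply_eq_comp, hq.J, mul_apply_eq_comp, ha.2]⟩
    | G => exact ⟨Mp86.sm_res _ _ _, Mp86.res_fix h.rs.bmp h.rs.mc hq.pp.sm ⟨1, hq.pp.norm_le⟩
        hq.pp.itw ha.2⟩
  have h2 := p.le h.cl.2 hq.pp.sm hq.pp.symm h1
  have h3 : ∀ x ∈ K, ∀ v, q x v = v → π x v = v := fun x hx v hv => by
    have e : q x (v - π x v) = v - π x v := by rw [map_sub, hv, (h2 x v).2]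
    refine (sub_eq_zero.1 ((p.hf x).ext h.hB h.ok
      (p.toPrj.ne_zero hK ⟨[], swIn_nil, rfl⟩ hy h0 hx)
      (by rw [← e, ← mul_apply_eq_comp, hq.p]) (by rw [map_sub, p.idem, sub_self])
      fun s => ?_)).symm
    rw [← e, ← (h2 x _).1, ← mul_apply_eq_comp (q x), ← mul_apply_eq_comp (q x * _), hq.j x hx]
    simp
  refine ⟨fun F' k P P1 u hu hc hs e1 e2 => ?_, fun x hx v hv => ?_⟩
  · obtain ⟨f, hf, f1⟩ := exists_tf_one (I := I) hc h.opn hs
    convert p.ap_lin h P1 hf hu using 1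
    funext x
    by_cases hx : x ∈ tsupport u
    · rw [f1 x hx, one_smul, h3 x (hs hx).2 _ (e2 x), e1]
    · simp [image_eq_zero_of_notMem_tsupport hx]
  · rw [← h3 x hx _ (hq.pp.idem x v)]
    refine prj_pt h.fam h.rs p.toPrj ?_
    rintro _ ⟨w, hw, rfl⟩
    exact hv w hw

end Crest.Agent.X212.Nt92
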