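import Crest.Agent.X212.Wrd81.Ap
import Crest.Agent.X212.Wz78.Lich

/-!
# Row 212, NT (helper92), part 2: the words span the range of their projector at every point
-/

set_option autoImplicit false
set_option linter.unusedSectionVars false
noncomputable section
open scoped Manifold ContDiff Topology InnerProductSpace
open MeasureTheory Set Function Filter

namespace Crest.Agent.X212.Nt92
open An Sob92 Wrd81

variable {E : Type} [NormedAddCommGroup E] [NormedSpace ℝ E] [FiniteDimensional ℝ E]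
  [MeasurableSpace E] [BorelSpace E]
  {HM : Type} [TopologicalSpace HM] {I : ModelWithCorners ℝ E HM} [I.Boundaryless]
  {M : Type} [TopologicalSpace M] [ChartedSpace HM M] [IsManifold I ∞ M]
  [MeasurableSpace M] [T2Space M] [BorelSpace M] [SecondCountableTopology M]
  {ι : Type} [Fintype ι]
  {V : Type} [NormedAddCommGroup V] [InnerProductSpace ℝ V] [FiniteDimensional ℝ V]
  {F : Fr I M ι} {A : ι → M → V →L[ℝ] V} {K Ω : Set M}

variable (F A) in
/-- smooth parallel orthogonal projectors -/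
structure PP (q : M → V →L[ℝ] V) : Prop where
  sm : Sm I q
  symm : ∀ x v w, ⟪q x v, w⟫_ℝ = ⟪v, q x w⟫_ℝ
  idem : ∀ x v, q x (q x v) = q x v
  par : ∀ a x, F.D a q x = q x * A a x - A a x * q x

theorem _root_.Crest.Agent.X212.Wrd81.Prj.pp {𝒲 : Set (M → V)} {π : M → V →L[ℝ] V}
    (h : Prj K Ω F A 𝒲 π) : PP F A π := ⟨h.sm, h.symm, h.idem, h.par⟩

namespace PP
variable {q : M → V →L[ℝ] V} (h : PP F A q)
include h

theorem norm_le (x : M) : ‖q x‖ ≤ 1 := by
  refine ContinuousLinearMap.opNorm_le_bound _ zero_le_one fun v => ?_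
  have h1 : ‖q x v‖ ^ 2 ≤ ‖v‖ * ‖q x v‖ := by
    rw [← real_inner_self_eq_norm_sq, h.symm, h.idem]; exact real_inner_le_norm _ _
  rw [one_mul]
  exact le_of_not_gt fun hlt => by nlinarith [norm_nonneg v]

theorem itw (x : M) : Eqv71.Itw I F.e A A q x := fun a => by
  change F.D a q x + A a x * q x = q x * A a x
  rw [h.par]; abel

theorem cov {u : M → V} (hu : Sm I u) (a : ι) (x : M) :
    cov F.toPre A a (fun y => q y (u y)) x = q x (cov F.toPre A a u x) :=
  (h.itw x).nab (md h.sm x) (md hu x) a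

theorem lap1 (hA : ∀ a, Sm I (A a)) {u : M → V} (hu : Sm I u) (x : M) :
    lap1 F A (fun y => q y (u y)) x = q x (lap1 F A u x) := by
  simp only [lap1_eq, map_add]
  rw [Eqv71.itw_lap (Wz78.frm F) (.of_forall h.itw) (h.sm x) (fun a => hA a x) (hu x)]

theorem isRes (hA : ∀ a, Sm I (A a)) {s u : M → V} (k : F.IsRes A s u) :
    F.IsRes A (fun x => q x (s x)) fun x => q x (u x) :=
  Mp86.isRes_map hA h.sm ⟨1, h.norm_le⟩ h.itw k

theorem sub {q' : M → V →L[ℝ] V} (k : PP F A q') (h1 : ∀ x v, q x (q' x v) = q' x v)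
    (h2 : ∀ x v, q' x (q x v) = q' x v) : PP F A fun x => q x - q' x :=
  ⟨h.sm.sub k.sm, fun x v w => by simp [inner_sub_left, inner_sub_right, h.symm, k.symm],
    fun x v => by simp [h.idem, k.idem, h1, h2], fun a x => by
      have := Sob92.dv_sub (e := F.e a) (md h.sm x) (md k.sm x)
      change Sob92.dv I (F.e a) (q - q') x = _
      rw [this]
      change F.D a q x - F.D a q' x = _
      rw [h.par, k.par, sub_mul, mul_sub]; abel⟩

end PP

theorem isRes_lap1 {w : M → V} (hw : Sm I w) (hc : HasCompactSupport w) :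
    F.IsRes A (lap1 F A w) w :=
  ⟨hw, hw.continuous.bounded_above_of_compact_support hc, fun x => by rw [lap1_eq]⟩

theorem isRes_iff {s u : M → V} :
    F.IsRes A s u ↔ Sm I u ∧ (∃ C, ∀ x, ‖u x‖ ≤ C) ∧ lap1 F A u = s := by
  rw [lap1_eq, funext_iff]; rfl

theorem val_GG (h : RH F A) (w : Tst I M V) :
    F.val 4 _ (GH F A 2 (GH F A 0 (F.toH 0 _ w))) = F.res A (F.res A w.1) := by
  have := FiniteDimensional.complete ℝ V
  obtain ⟨S, hS⟩ := h.sup
  have h0 := h.rsd.inf_j h.mc.sm w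
  obtain ⟨h1, -, h3⟩ := h.res_rp h0 w.2.1 (h.rsd.rp_j w)
  obtain ⟨h4, -, h5⟩ := h.res_rp h0.G h1.1 h3
  have e : h.rsd.G (h.rsd.G (h.rsd.j w)) = F.incl 4 0 _ (GH F A 2 (GH F A 0 (F.toH 0 _ w))) :=
    h.G0_incl 2 _
  have h6 : F.Cb (F.val 4 _ (GH F A 2 (GH F A 0 (F.toH 0 _ w)))) := Cb_val hS le_rfl fun j hj => by
    obtain ⟨g, hg⟩ := h.lev h0.G.G j
    exact ⟨g, incl_injective (Nat.zero_le 4) (by rw [incl_incl hj (Nat.zero_le _), hg]; exact e)⟩
  exact (rp_val hS le_rfl _).eq (e ▸ h5) h6.choose_spec.1 h4.1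

/-- **The words span the range of their projector at every point.** -/
theorem prj_pt {𝒲 : Set (M → V)} {π : M → V →L[ℝ] V} (c : Fam K Ω F A 𝒲) (h : RH F A)
    (p : Prj K Ω F A 𝒲 π) {x : M} {v : V} (hv : ∀ w ∈ 𝒲, ⟪v, w x⟫_ℝ = 0) : π x v = 0 := by
  have := FiniteDimensional.complete ℝ V
  let l : F.H 0 (triv M V) →L[ℝ] ℝ := innerSL ℝ v ∘L F.ev 4 _ x ∘L GH F A 2 ∘L GH F A 0
  have hl : ∀ w : Tst I M V, l (F.toH 0 _ w) = ⟪v, F.res A (F.res A w.1) x⟫_ℝ := fun w => by
    rw [← val_GG h w]; rfl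
  obtain ⟨m, hm⟩ := (l2d V F.toPre).exists_mul p.sm p.pp.norm_le
  have h0 : (InnerProductSpace.toDual ℝ _).symm (l ∘L m) = 0 := by
    refine (l2d V F.toPre).eq_zero_of_orth (c.op.union c.cl.1.isOpen_compl)
      (measure_mono_null (fun y hy => by simpa [and_comm] using hy) c.null) fun φ hφ => ?_
    rw [real_inner_comm, InnerProductSpace.toDual_symm_apply, ContinuousLinearMap.comp_apply, hm]
    have hs : tsupport (L2D.tstMul p.sm φ).1 ⊆ Ω := fun y hy =>
      (hφ (closure_mono (support_subset_iff'.2 fun z hz => by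
        simp [L2D.tstMul, notMem_support.1 hz]) hy)).resolve_right fun h =>
        h (closure_minimal (fun z hz => by
          by_contra h; exact hz (by simp [L2D.tstMul, p.off z h])) c.cl.1 hy)
    obtain ⟨_, h2⟩ := mem_Ap.1 (p.ap 0 _ (L2D.tstMul p.sm φ).2 hs fun y => p.idem y _)
    refine cl_le (U := l.ker) l.isClosed_ker ?_ h2
    rintro _ ⟨u, ⟨f, hf, w, hw, e⟩, rfl⟩
    change l _ = 0
    rw [hl, e]
    exact hv _ (c.res _ (c.res _ (c.mul f hf w hw)))
  obtain ⟨χ, hχ, h1⟩ := exists_tf (I := I) (O := univ) (x := x) univ_mem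
  let u : Tst I M V := ⟨_, smul_mem_tst hχ.sm hχ.hcs (contMDiff_const (c := v))⟩
  let L := RsD.lapT (V := V) F h.mc.sm
  have e1 : ∀ w : Tst I M V, L2D.tstMul p.sm (L w) = L (L2D.tstMul p.sm w) := fun w =>
    Subtype.ext (funext fun y => (p.pp.lap1 h.mc.sm w.2.1 y).symm)
  have e2 : ∀ w : Tst I M V, F.res A (L w).1 = w.1 := fun w =>
    Mp86.res_eq h.bmp h.mc (isRes_lap1 w.2.1 w.2.2.1)
  have h2 : l (m ((l2d V F.toPre).j (L (L u)))) = 0 := by
    rw [← ContinuousLinearMap.comp_apply, (LinearIsometryEquiv.map_eq_zero_iff _).1 h0]; rfl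
  rw [hm, e1, e1] at h2
  have h3 := (hl _).symm.trans h2
  rw [e2, e2] at h3
  have h4 : ⟪v, π x v⟫_ℝ = 0 := by simpa [L2D.tstMul, u, h1] using h3
  rwa [← p.idem, ← p.symm, inner_self_eq_zero] at h4

/-- irreducibility of the bundle `q` over the piece `K` -/
def Irr (F : Fr I M ι) (A : ι → M → V →L[ℝ] V) (K : Set M) (q : M → V →L[ℝ] V) : Prop :=
  ∀ π, PP F A π → (∀ x v, q x (π x v) = π x v) → (∀ x ∈ K, π x = 0) ∨ ∀ x ∈ K, π x = q x

/-- it is enough to check irreducibility under the curvature at one point -/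
theorem irr_of_curv (hA : ∀ a, Sm I (A a)) (hK : IsPreconnected K) {q : M → V →L[ℝ] V}
    (hq : PP F A q) {y : M} (hy : y ∈ K)
    (h : ∀ T : V →L[ℝ] V, (∀ v, T (T v) = T v) → (∀ v, q y (T v) = T v) →
      (∀ v, T (q y v) = T v) →
      (∀ a b, Wz78.curv I F.e F.c A a b y * T = T * Wz78.curv I F.e F.c A a b y) →
      T = 0 ∨ T = q y) : Irr F A K q := by
  intro π p h1
  have h2 : ∀ x v, π x (q x v) = π x v := fun x v =>
    ext_inner_right ℝ fun w => by rw [p.symm, hq.symm, h1, p.symm]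
  refine (h _ (p.idem y) (h1 y) (h2 y) fun a b => (Wz78.frm F).curv_par (fun a => hA a y) (p.sm y)
    (fun a => .of_forall fun z => ?_) a b).imp
    (fun e x hx => zero_const p.sm.continuous p.idem hK hy hx e) fun e x hx => ?_
  · change F.D a π z + _ = 0
    rw [p.par]; abel
  · have k := hq.sub p h1 h2
    exact (sub_eq_zero.1 (zero_const k.sm.continuous k.idem hK hy hx (sub_eq_zero.2 e.symm))).symm

end Crest.Agent.X212.Nt92
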